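import Crest.Agent.N255.Wn.Re
import Crest.Agent.N255.En.Defs

/-!
# Row 255 (helper46): consequences of the end structure: far cohomology, pushing cycles to infinity,
q-tameness, detection, degree of the walls
-/

set_option autoImplicit false
open Set Filter Topology

noncomputable section

namespace Crest.Agent.N255.Wn

open Crest.Agent.N255.Tp Crest.Agent.N255.Wi Crest.Agent.N255.En Crest.Agent.N255.Nv
  Crest.Agent.N255.Pt Crest.Agent.N255.Lv

variable {X : Type} [TopologicalSpace X] {k : Type} [Field k] {n i j : ℕ}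

section gen
variable {U V U' V' : Set X}





theorem D_sm {D : ∀ {n : ℕ} (j : ℕ) {i : ℕ}, Co k i X → Ch k n X →ₗ[k] Ch k j X} (hD : CapLike k X D)
    {𝒰 : Set (Set X)} (τ : Co k i X) {z : Ch k n X} (hz : z ∈ (Sm 𝒰).ch k n) :
    D j τ z ∈ (Sm 𝒰).ch k j :=
  Sb.map_mem (D j τ) _ (fun _ hσ => by
    obtain ⟨Y, hY, hσ⟩ := hσ
    exact Sb.ch_mono (On_le_Sm hY) (hD.mem _ _ _ (Sb.sg_mem hσ))) hz

theorem cap'_one (z : Ch k n X) : cap' n (fun _ : Sx 0 X => (1 : k)) z = z :=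
  ch_ext' (T := LinearMap.id) (fun σ => by simp [cap', fr_self]) z

theorem cup_Z_sb {M M' M'' : Type} [AddCommGroup M] [Module k M] [AddCommGroup M'] [Module k M']
    [AddCommGroup M''] [Module k M''] (μ : M →ₗ[k] M' →ₗ[k] M'') {𝒰 : Set (Set X)} (h : i + j = n)
    {φ : Co M i X} {ψ : Co M' j X} (hφ : φ ∈ ((On U).inf (Sm 𝒰)).Z k M i)
    (hψ : ψ ∈ ((On U).inf (Sm 𝒰)).Z k M' j) : cup μ n φ ψ ∈ ((On U).inf (Sm 𝒰)).Z k M'' n := by
  rw [Sb.mem_Z, cupS_holds k _ _ _ μ X i j n h]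
  rintro σ ⟨h1, Y, hY, h2⟩
  have a := hφ (fr (i + 1) σ) ⟨(range_fr _ σ).trans h1, Y, hY, (range_fr _ σ).trans h2⟩
  have b := hψ (bk (j + 1) σ) ⟨(range_bk _ σ).trans h1, Y, hY, (range_bk _ σ).trans h2⟩
  simp [cup, a, b]

end gen

variable {ι S : Type} [DecidableEq ι] [MulAction (FreeGroup ι) S] {w : En.Wl ι S}
  {F : Subgroup (FreeGroup ι)} [MulAction F X] {J : Finset (Ed ι)} {t t' : Ed ι → ℝ}
  {a a' a₁ a'' b b' b₁ b'' R R' : ℝ}



/-- thresholds of a window -/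
def tw (e : Ed ι) (a b : ℝ) : Ed ι → ℝ := fun e' => if e' = e then b else 1 - a

theorem tw_self (e : Ed ι) : tw e a b e = b := if_pos rfl

theorem tw_rev (e : Ed ι) : tw e a b (rev e) = 1 - a := if_neg (rev_ne e)

theorem adm_tw (e : Ed ι) (h0 : 0 < a) (h1 : a < a') (h2 : a' < b') (h3 : b' < b) (h4 : b < 1) :
    Adm {e, rev e} (tw e a' b') (tw e a b) := by
  intro e' he
  simp only [Finset.mem_insert, Finset.mem_singleton] at he
  rcases he with rfl | rfl <;> simp only [tw_self, tw_rev, rev_rev] <;>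
    exact ⟨by linarith, by linarith, by linarith, fun _ => by linarith⟩

theorem face_tw (e : Ed ι) : Face {e, rev e} := Or.inr ⟨e, by simp⟩


theorem mod_tw (e : Ed ι) : w.Mod {e, rev e} = w.T e := by
  ext x
  simp only [En.Wl.Mod, Finset.mem_insert, Finset.mem_singleton, forall_eq_or_imp, forall_eq,
    mem_ofPred_eq]
  exact ⟨fun h => ((w.tri e x).resolve_right fun h' => h'.elim h.1 h.2),
    fun h => ⟨w.TB e x h, w.TB _ x (by rwa [w.T_rev])⟩⟩

section lev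
variable (N : Lev w F X)

theorem reg_tw (e : Ed ι) : N.Reg {e, rev e} (tw e a b) R = fw (N.s e) N.r a b R := by
  ext x
  simp only [Lev.Reg, fw, Finset.mem_insert, Finset.mem_singleton, forall_eq_or_imp, forall_eq,
    mem_ofPred_eq, tw_self, tw_rev, N.s_rev]
  exact and_congr_right fun _ => ⟨fun h => ⟨by linarith [h.2], h.1⟩, fun h => ⟨h.2, by linarith [h.1]⟩⟩


theorem lo_rev (e : Ed ι) : lo (N.s (rev e)) a = hi (N.s e) (1 - a) := by
  ext x; simp only [lo, hi, N.s_rev, mem_ofPred_eq]; constructor <;> intro h <;> linarith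

theorem hi_rev (e : Ed ι) : hi (N.s (rev e)) a = lo (N.s e) (1 - a) := by
  ext x; simp only [lo, hi, N.s_rev, mem_ofPred_eq]; constructor <;> intro h <;> linarith


theorem reg_mono (h : ∀ e ∈ J, t e ≤ t' e) (hR : R' ≤ R) : N.Reg J t R ⊆ N.Reg J t' R' :=
  fun _ hx => ⟨hR.trans_lt hx.1, fun e he => (hx.2 e he).trans_le (h e he)⟩

theorem box_cpt (e : Ed ι) (a b R : ℝ) : IsCompact (box (N.s e) N.r a b R) :=
  (N.cpt_w e R (max |a| |b|)).of_isClosed_subset isClosed_box fun _ h =>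
    ⟨h.1, abs_le_max_abs_abs h.2.1 h.2.2⟩

theorem cv_sub (U : Set X) : U ⊆ ⋃₀ N.cv := (subset_univ U).trans N.cv_cover

/-- far small simplices have clique labels in the model -/
theorem lab_ct (h : ∀ e ∈ J, t e < 1) : ∃ R₀, ∀ R, R₀ ≤ R → ∀ n, ∀ σ ∈ (N.Sb (N.Reg J t R)).S n,
    vl N.lab σ ∈ w.Ct (w.Mod J) n := by
  have : ∀ᶠ R in atTop, N.R0 ≤ R ∧ ∀ e ∈ J, ∀ x, R < N.r x → N.s e x < t e → N.lab x ∉ w.B e := by
    refine (eventually_ge_atTop _).and ((eventually_all_finset J).2 fun e he => ?_)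
    obtain ⟨R₁, h1⟩ := N.lab_side (1 - t e) (by linarith [h e he])
    exact (eventually_ge_atTop R₁).mono fun R hR x hx hs => h1 e x (hR.trans_lt hx) (by linarith)
  obtain ⟨R₀, h0⟩ := eventually_atTop.1 this
  refine ⟨R₀, fun R hR n σ ⟨h1, Y, hY, h2⟩ => ⟨?_, ?_⟩⟩
  · rintro _ ⟨p, rfl⟩ e he
    have := h1 ⟨stdSimplex.vertex p, rfl⟩
    exact (h0 R hR).2 e he _ this.1 (this.2 e he)
  · rintro _ ⟨p, rfl⟩ _ ⟨q, rfl⟩
    exact N.lab_cl Y hY _ (h2 ⟨_, rfl⟩) _ (h2 ⟨_, rfl⟩) ((h0 R hR).1.trans_lt (h1 ⟨_, rfl⟩).1)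
      ((h0 R hR).1.trans_lt (h1 ⟨_, rfl⟩).1)

variable (M : Md w)

variable (k) in
/-- the far class of the meridian -/
def mc (e : Ed ι) : Co k 1 X := rs N.lab (t1 k (M.mer e))

theorem td_mer {e : Ed ι} (he : e ∈ J) : ∀ v ∈ w.Ct (w.Mod J) 2, td k (t1 k (M.mer e)) v = 0 := by
  intro v hv
  have m := fun p => hv.1 ⟨p, rfl⟩ e he
  have c := fun p q => hv.2 _ ⟨p, rfl⟩ _ ⟨q, rfl⟩
  simp [td1, t1, M.mer_add e (v 0) (v 1) (v 2) (m 0) (m 1) (m 2) (c 0 1) (c 1 2) (c 0 2)]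

theorem mc_Z (h : ∀ e ∈ J, t e < 1) : ∃ R₀, ∀ R, R₀ ≤ R → ∀ e ∈ J,
    mc k N M e ∈ (N.Sb (N.Reg J t R)).Z k k 1 := by
  obtain ⟨R₀, h0⟩ := lab_ct N h
  exact ⟨R₀, fun R hR e he => rs_Z (h0 R hR 2) (td_mer M he)⟩

theorem rs_t2 (e e' : Ed ι) : rs N.lab (t2 k (M.mer e) (M.mer e')) =
    cup (LinearMap.mul k k) 2 (mc k N M e) (mc k N M e') := by
  rw [mc, mc, cup_rs]
  congr 1
  funext v
  simp [tcup11, t1, t2]

/-- **degree of a wall** -/
theorem deg_wr [T2Space X] {O : Ori k 3 X} {u : kˣ} (hd : N.Deg M O u) (e : Ed ι) (h0 : 0 < a)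
    (h1 : a < b) (h2 : b < 1) : ∃ R₀, ∀ R, R₀ ≤ R → ∀ c, Wr O N.cv (N.s e) N.r a b R c →
      bd k c ∈ (Sm N.cv).ch k 2 →
      ev k (cup (LinearMap.mul k k) 2 (mc k N M e) (mc k N M (rev e))) (bd k c) = u := by
  obtain ⟨R₁, h3⟩ := hd e a b h0 h1 h2
  obtain ⟨R₂, h4⟩ := mc_Z (k := k) N M (J := {e, rev e}) (t := tw e a b) (by
    simp only [Finset.mem_insert, Finset.mem_singleton, forall_eq_or_imp, forall_eq, tw_self, tw_rev]
    exact ⟨h2, by linarith⟩)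
  refine ⟨max R₁ R₂, fun R hR c hc hs => ?_⟩
  have hZ := cup_Z_sb (LinearMap.mul k k) (n := 2) rfl (h4 R ((le_max_right _ _).trans hR) e (by simp))
    (h4 R ((le_max_right _ _).trans hR) (rev e) (by simp))
  rw [reg_tw] at hZ
  have hε : 0 < (b - a) / 2 := by linarith
  obtain ⟨K, z, k1, k2, k3, k4, k5, k6⟩ := hc.at N.cv_open N.cv_cover hε (m := (a + b) / 2) (by linarith)
    (by linarith) (box_cpt N e a b R)
  have C := cut_win N.cv_open N.cv_cover (s := N.s e) (r := N.r) (a := a) (b := b) (m := (a + b) / 2) hε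
    (by linarith) le_rfl le_rfl (by linarith)
  set A := lo (N.s e) ((a + b) / 2) with hA
  have sz := Sb.ch_mono cv_le k4
  have al : ∀ Y ∈ cv N.cv (N.s e) N.r ((b - a) / 2), ∀ T, cut k A ∈ (On Y).van k k 0 ∨
      Y ∩ T ⊆ T ∩ lo (N.s e) b := fun Y hY T => (C.l Y hY).imp (fun h => van_mono h cut_van)
    fun h x hx => ⟨hx.2, h hx.1⟩
  have sw : bd k (wall A z) ∈ (Sm N.cv).ch k 2 := Sb.bd_mem (D_sm cD _ sz)
  have e1 := h3 R ((le_max_left _ _).trans hR) K (cap' 4 (cut k A) z)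
    (cap' 4 ((fun _ => 1) - cut k A) z) (wall A z) (cap' 3 (cut k A) (bd k z)) k1
    (fun x hx => k2 ⟨hx.1, by linarith [hx.2.1], by linarith [hx.2.2]⟩)
    (by rwa [D_sub cD, cap'_one, add_sub_cancel])
    (Sml.mem_inf (ch_mono inter_subset_right (loc_sm cD (fun Y hY => al Y hY univ) k4 (mem_ch_univ _)))
      (D_sm cD _ sz))
    (Sml.mem_inf (loc_sm cD (T := univ) (fun Y hY => (C.r Y hY).imp
      (fun h => van_mono h one_sub_cut_van) fun h => inter_subset_left.trans h) k4 (mem_ch_univ _))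
      (D_sm cD _ sz))
    (by rw [bd_cap' (by omega), wall]; norm_num; abel) (Sml.mem_inf (C.wall_mem k4) (D_sm cD _ sz))
    (Sml.mem_inf (loc_sm cD (fun Y hY => al Y hY Kᶜ) (Sb.bd_mem k4) k5.rc) (D_sm cD _ (Sb.bd_mem sz)))
    (ch_mono (fun _ h => h.1) (C.bd_wall k4 k5.rc k3))
  rw [rs_t2] at e1
  obtain ⟨_, ⟨p, -, rfl⟩, y, hy, e2⟩ := Submodule.mem_sup.1 k6
  have e3 : bd k (wall A z) - bd k c = bd k (Sml.rho k N.cv _ y) := by
    rw [Sml.bd_rho, ← Sml.rho_of_sm k N.cv (Submodule.sub_mem _ sw hs), ← map_sub (bd k), ← e2, map_add,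
      bd_bd, zero_add]
  have e4 := Sb.ev_B hZ (Sb.bd_mem_B (Sml.rho_inf k N.cv_open (cv_sub N _) hy))
  rw [← e3, map_sub, e1, sub_eq_zero] at e4
  exact e4.symm

end lev

variable (E : End w F k X) (M : Md w)

include M in
/-- far cocycles of degree zero are constant -/
theorem far_zero (hJ : Face J) (h : Adm J t t') (R : ℝ) : ∃ R', ∀ (A : Type) [AddCommGroup A] [Module k A],
    ∀ φ ∈ (E.Sb (E.Reg J t' R)).Z k A 0, ∃ a, φ - (fun _ => a) ∈ (On (E.Reg J t R')).van k A 0 := by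
  obtain ⟨R₁, h1⟩ := (E.l0 J t t' h).2 R
  obtain ⟨R₂, h2⟩ := lab_ct E.toLev (t := t) fun e he => (h e he).2.1.trans (h e he).2.2.1
  refine ⟨max R₁ R₂, fun A _ _ φ hφ => ?_⟩
  obtain ⟨ψ, p1, p2⟩ := h1 A φ hφ
  obtain ⟨a, ha⟩ := M.h0 J hJ A ψ fun v hv => by rw [← td_int k]; exact p1 v hv
  refine ⟨a, fun σ hσ => ?_⟩
  obtain ⟨Y, hY, hx⟩ := E.cv_cover (mem_univ (σ (stdSimplex.vertex 0)))
  have := p2 σ (hσ.trans (reg_mono _ (fun _ _ => le_rfl) (le_max_left _ _)))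
  rwa [Pi.sub_apply, rs_apply, ha _ (h2 _ (le_max_right _ _) 0 σ
    ⟨hσ, Y, hY, by rw [Tp.range_zero]; exact singleton_subset_iff.2 hx⟩)] at this

/-- far cocycles of degree one are combinations of the meridian classes -/
theorem far_one (hJ : Face J) (h : Adm J t t') (R : ℝ) : ∃ R', ∀ (A : Type) [AddCommGroup A] [Module k A],
    ∀ φ ∈ (E.Sb (E.Reg J t' R)).Z k A 1, ∃ a : Ed ι → A,
      φ - (fun σ => ∑ e ∈ J, mc k E.toLev M e σ • a e) ∈ (E.Sb (E.Reg J t R')).Ex k A 1 := by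
  obtain ⟨R₁, h1⟩ := E.l1 J t t' h R
  obtain ⟨R₂, h2⟩ := lab_ct E.toLev (t := t) fun e he => (h e he).2.1.trans (h e he).2.2.1
  refine ⟨max R₁ R₂, fun A _ _ φ hφ => ?_⟩
  obtain ⟨ψ, p1, p2⟩ := h1 0 (by omega) A φ hφ
  obtain ⟨a, η, ha⟩ := M.h1 J hJ A ψ fun v hv => by rw [← td_int k]; exact p1 v hv
  refine ⟨a, ?_⟩
  have p3 := Sb.Ex_mono (Sb.le_inf (Sb.inf_le_left.trans (On_le (reg_mono E.toLev (fun _ _ => le_rfl)
    (le_max_left R₁ R₂)))) Sb.inf_le_right) p2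
  have p4 : rs E.lab ψ - (fun σ => ∑ e ∈ J, mc k E.toLev M e σ • a e) ∈
      (E.Sb (E.Reg J t (max R₁ R₂))).Ex k A 1 := Sb.mem_Ex.2 ⟨rs E.lab η, fun σ hσ => by
    rw [cob_rs, td_int]
    simp [rs_apply, ha _ (h2 _ (le_max_right _ _) 1 σ hσ), mc, t1, Int.cast_smul_eq_zsmul]⟩
  simpa using Submodule.add_mem _ p3 p4

/-- far cocycles of degree two of a window are multiples of the product of the meridian classes -/
theorem far_two {e : Ed ι} (hJ : J = {e, rev e}) (h : Adm J t t') (R : ℝ) :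
    ∃ R', ∀ (A : Type) [AddCommGroup A] [Module k A], ∀ φ ∈ (E.Sb (E.Reg J t' R)).Z k A 2, ∃ a : A,
      φ - (fun σ => cup (LinearMap.mul k k) 2 (mc k E.toLev M e) (mc k E.toLev M (rev e)) σ • a) ∈
        (E.Sb (E.Reg J t R')).Ex k A 2 := by
  obtain ⟨R₁, h1⟩ := E.l1 J t t' h R
  obtain ⟨R₂, h2⟩ := lab_ct E.toLev (t := t) fun e he => (h e he).2.1.trans (h e he).2.2.1
  refine ⟨max R₁ R₂, fun A _ _ φ hφ => ?_⟩
  obtain ⟨ψ, p1, p2⟩ := h1 1 le_rfl A φ hφ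
  subst hJ
  rw [mod_tw] at h2 p1
  obtain ⟨a, η, ha⟩ := M.h2 e A ψ fun v hv => by rw [← td_int k]; exact p1 v hv
  refine ⟨a, ?_⟩
  have p3 := Sb.Ex_mono (Sb.le_inf (Sb.inf_le_left.trans (On_le (reg_mono E.toLev (fun _ _ => le_rfl)
    (le_max_left R₁ R₂)))) Sb.inf_le_right) p2
  have p4 : rs E.lab ψ - (fun σ => cup (LinearMap.mul k k) 2 (mc k E.toLev M e)
      (mc k E.toLev M (rev e)) σ • a) ∈ (E.Sb (E.Reg {e, rev e} t (max R₁ R₂))).Ex k A 2 :=
    Sb.mem_Ex.2 ⟨rs E.lab η, fun σ hσ => by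
      rw [cob_rs, td_int, ← rs_t2]
      simp [rs_apply, ha _ (h2 _ (le_max_right _ _) 2 σ hσ), t2, ← Int.cast_smul_eq_zsmul k]⟩
  simpa using Submodule.add_mem _ p3 p4

theorem fr_of_span {P Q : Tp.Sb X} (s : Finset (Co k n X))
    (h : ∀ φ ∈ Q.Z k k n, ∃ x ∈ Submodule.span k (s : Set (Co k n X)), φ - x ∈ P.Ex k k n) :
    FR (Q.Z k k n) (P.Ex k k n) :=
  ⟨_, Submodule.fg_span s.finite_toSet, fun φ hφ => by
    obtain ⟨x, h1, h2⟩ := h φ hφ
    exact Submodule.mem_sup.2 ⟨x, h1, _, h2, by abel⟩⟩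

include M in
/-- tameness of the far regions -/
theorem far_fr (hJ : Face J) (h : Adm J t t') (hn : n ≤ 1 ∨ n = 2 ∧ ∃ e, J = {e, rev e}) (R : ℝ) :
    ∃ R', FR ((On (E.Reg J t R')).ch k n ⊓ cyc k X n) ((On (E.Reg J t' R)).B k n) := by
  classical
  suffices ∃ R', FR ((E.Sb (E.Reg J t' R)).Z k k n) ((E.Sb (E.Reg J t R')).Ex k k n) by
    obtain ⟨R', h1⟩ := this
    refine ⟨max R R', fr_of_sm E.cv_open (cv_sub _ _)
      (reg_mono _ (fun e he => (h e he).2.1.le) (le_max_left _ _)) (fr_hom_of_coh (h1.mono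
        (Sb.Z_mono Sb.inf_le_left) (Sb.Ex_mono (Sb.le_inf (Sb.inf_le_left.trans (On_le
          (reg_mono E.toLev (fun _ _ => le_rfl) (le_max_right R R')))) Sb.inf_le_right))))⟩
  rcases hn with hn | ⟨rfl, e, he⟩
  · interval_cases n
    · obtain ⟨R', h1⟩ := far_zero E M hJ h R
      refine ⟨R', fr_of_span {fun _ => 1} fun φ hφ => ?_⟩
      obtain ⟨a, ha⟩ := h1 k φ hφ
      refine ⟨_, ?_, Sb.van_mono Sb.inf_le_left ha⟩
      rw [show (fun _ => a : Co k 0 X) = a • fun _ => 1 by funext; simp]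
      exact Submodule.smul_mem _ _ (Submodule.subset_span (by simp))
    · obtain ⟨R', h1⟩ := far_one E M hJ h R
      refine ⟨R', fr_of_span (J.image (mc k E.toLev M)) fun φ hφ => ?_⟩
      obtain ⟨a, ha⟩ := h1 k φ hφ
      refine ⟨_, ?_, ha⟩
      rw [show (fun σ => ∑ e ∈ J, mc k E.toLev M e σ • a e) = ∑ e ∈ J, a e • mc k E.toLev M e by
        funext; simp [mul_comm]]
      exact Submodule.sum_mem _ fun e he => Submodule.smul_mem _ _
        (Submodule.subset_span (by simpa using ⟨e, he, rfl⟩))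
  · obtain ⟨R', h1⟩ := far_two E M he h R
    refine ⟨R', fr_of_span {cup (LinearMap.mul k k) 2 (mc k E.toLev M e) (mc k E.toLev M (rev e))}
      fun φ hφ => ?_⟩
    obtain ⟨a, ha⟩ := h1 k φ hφ
    refine ⟨_, ?_, ha⟩
    rw [show (fun σ => cup (LinearMap.mul k k) 2 (mc k E.toLev M e) (mc k E.toLev M (rev e)) σ • a) =
      a • cup (LinearMap.mul k k) 2 (mc k E.toLev M e) (mc k E.toLev M (rev e)) by
        funext; simp [mul_comm]]
    exact Submodule.smul_mem _ _ (Submodule.subset_span (by simp))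




variable [T2Space X] [ChartedSpace (EE 4) X] (hX : Acy k (univ : Set X) univ)

include M in
/-- **windows are q-tame** -/
theorem end_win (e : Ed ι) (h0 : 0 ≤ a) (h1 : a < a') (h2 : a' < b') (h3 : b' < b) (h4 : b ≤ 1)
    (hn : n ≤ 2) : FR ((On (win (E.s e) a' b')).ch k n ⊓ cyc k X n) ((On (win (E.s e) a b)).B k n) := by
  obtain ⟨R, h⟩ := far_fr E M (face_tw e) (adm_tw e (a := (2 * a + a') / 3) (a' := (a + 2 * a') / 3)
    (b' := (b + 2 * b') / 3) (b := (2 * b + b') / 3) (by linarith) (by linarith) (by linarith)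
    (by linarith) (by linarith)) (n := n) (by
      rcases hn.lt_or_eq with h | h
      exacts [Or.inl (by omega), Or.inr ⟨h, e, rfl⟩]) 0
  rw [reg_tw, reg_tw] at h
  exact tame_win 4 (a' := (a + 2 * a') / 3) (b' := (b + 2 * b') / 3) (by linarith) (by linarith)
    (by linarith) (by linarith) (box_cpt _ e _ _)
    (h.mono le_rfl (B_mono (fw_le.trans (win_mono (by linarith) (by linarith)))))

include M hX

/-- **sides are q-tame** -/
theorem end_lo (e : Ed ι) (h0 : 0 < a) (h1 : a < b) (h2 : a < 1) (hn : n ≤ 2) :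
    FR ((On (lo (E.s e) a)).ch k n ⊓ cyc k X n) ((On (lo (E.s e) b)).B k n) :=
  (tame_sides hX (show a / 2 < a by linarith) (by linarith) (lt_min h1 h2).le
    (end_win E M e le_rfl (by linarith) (by linarith) (lt_min h1 h2) (min_le_right _ _) hn)).1.mono
    le_rfl (B_mono (lo_mono (min_le_left _ _)))

theorem end_hi (e : Ed ι) (h0 : 0 < b) (h1 : a < b) (h2 : b < 1) (hn : n ≤ 2) :
    FR ((On (hi (E.s e) b)).ch k n ⊓ cyc k X n) ((On (hi (E.s e) a)).B k n) := by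
  simpa only [lo_rev, sub_sub_cancel] using
    end_lo E M hX (rev e) (a := 1 - b) (b := 1 - a) (by linarith) (by linarith) (by linarith) hn





end Crest.Agent.N255.Wn

end
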