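import Crest.Agent.N255.Tp.Du
import Crest.Agent.N255.Tp.Sm
import Crest.Agent.N255.Tp.Det
import Crest.Agent.N255.Tp.Cap
import Crest.Agent.N255.Tp.All
import Crest.Agent.N255.Tp.Comm
import Crest.Agent.N255.Wi.All

-- ▼ part N255/Tp/Rel
section

/-!
# Row 255, block D (helper83): Poincaré–Lefschetz duality for pairs `V ⊆ U` of open sets

`H^i (Cc U / Cc V) = H_{n-i} (U, V)`; the left side is the Čech cohomology with compact supports of the
closed subset `U \ V` of `U`.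
-/

set_option autoImplicit false
open Set Filter Topology

noncomputable section

namespace Crest.Agent.N255.Tp

variable {X : Type} [TopologicalSpace X] {n : ℕ} {U V K L K' L' : Set X}

section ring

variable {k : Type} [CommRing k] {d : ℕ}

/-- null chains of the pair -/
def RN (k : Type) [CommRing k] (U V : Set X) (n : ℕ) : Submodule k (Ch k n X) :=
  (On U).B k n ⊔ (On V).ch k n

/-- relative cycles -/
def rcy (k : Type) [CommRing k] (V : Set X) : ∀ n, Submodule k (Ch k n X)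
  | 0 => ⊤
  | n + 1 => ((On V).ch k n).comap (bd k)

/-- cochains with compact support in `U` whose coboundary has compact support in `V` -/
def RZ (k : Type) [CommRing k] (U V : Set X) (A : Type) [AddCommGroup A] [Module k A] (n : ℕ) :
    Submodule k (Co A n X) := Cc k U A n ⊓ (Cc k V A (n + 1)).comap (cob k)

/-- admissible data for the relative cap product -/
structure Ori.RAd (O : Ori k d X) (U V : Set X) {A : Type} [AddCommGroup A] [Module k A] {i : ℕ}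
    (φ : Co A i X) (K L : Set X) (z : Ch k (d + 1) X) : Prop where
  hK : IsCompact K
  hL : IsCompact L
  KU : K ⊆ U
  LV : L ⊆ V
  LK : L ⊆ K
  hφ : φ ∈ (On Kᶜ).van k A i
  hθ : cob k φ ∈ (On Lᶜ).van k A (i + 1)
  hz : z ∈ (On (U ∩ Lᶜ)).ch k (d + 1) ⊔ (On V).ch k (d + 1)
  hf : O.Fund K z

/-- relative duality relation -/
def Ori.RDu (O : Ori k d X) (D : ∀ {n : ℕ} (j : ℕ) {i : ℕ}, Co k i X → Ch k n X →ₗ[k] Ch k j X)
    (U V : Set X) {i j : ℕ} (φ : Co k i X) (c : Ch k j X) : Prop :=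
  ∃ K L z, O.RAd U V φ K L z ∧ D j φ z - c ∈ RN k U V j

theorem B_le_RN : (On U).B k n ≤ RN k U V n := le_sup_left

theorem ch_le_RN : (On V).ch k n ≤ RN k U V n := le_sup_right

variable {D : ∀ {n : ℕ} (j : ℕ) {i : ℕ}, Co k i X → Ch k n X →ₗ[k] Ch k j X}

namespace Ori

variable {O : Ori k d X} {i j : ℕ} {z z' : Ch k (d + 1) X}

section coef

variable {A : Type} [AddCommGroup A] [Module k A] {φ ψ : Co A i X}

theorem RAd.mem_RZ (h : O.RAd U V φ K L z) : φ ∈ RZ k U V A i :=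
  ⟨⟨K, h.hK, h.KU, h.hφ⟩, L, h.hL, h.LV, h.hθ⟩

theorem RAd.on (h : O.RAd U V φ K L z) (hVU : V ⊆ U) : z ∈ (On U).ch k (d + 1) := by
  obtain ⟨a, ha, b, hb, rfl⟩ := Submodule.mem_sup.1 h.hz
  exact Submodule.add_mem _ (ch_mono inter_subset_left ha) (ch_mono hVU hb)

theorem RAd.shrink (h : O.RAd U V φ K L z) (h' : O.RAd U V ψ K' L' z') (hK : K ⊆ K') (hL : L ⊆ L') :
    O.RAd U V φ K L z' :=
  { h with
    hz := by
      obtain ⟨a, ha, b, hb, rfl⟩ := Submodule.mem_sup.1 h'.hz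
      exact Submodule.add_mem_sup
        (ch_mono (inter_subset_inter_right _ (compl_subset_compl.2 hL)) ha) hb
    hf := h'.hf.mono h.hK h'.hK hK }

theorem exists_z [T2Space X] (O : Ori k d X) (hU : IsOpen U) (hV : IsOpen V) (hK : IsCompact K)
    (hL : IsCompact L) (KU : K ⊆ U) (LV : L ⊆ V) :
    ∃ z ∈ (On (U ∩ Lᶜ)).ch k (d + 1) ⊔ (On V).ch k (d + 1), O.Fund K z := by
  obtain ⟨z, hz, hf⟩ := fundS_holds k X d O K {U ∩ Lᶜ, V} hK
    (open_pair (hU.inter hL.isClosed.isOpen_compl) hV) fun x hx => by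
      by_cases h : x ∈ L
      · exact ⟨V, Or.inr rfl, LV h⟩
      · exact ⟨_, Or.inl rfl, KU hx, h⟩
  exact ⟨z, by rwa [Sm_pair, Sb.ch_sup] at hz, hf⟩

/-- admissible data exist, with arbitrarily large compact sets -/
theorem exists_rad [T2Space X] (O : Ori k d X) (hU : IsOpen U) (hV : IsOpen V) (hVU : V ⊆ U)
    (h : φ ∈ RZ k U V A i) (hK : IsCompact K) (hL : IsCompact L) (KU : K ⊆ U) (LV : L ⊆ V) :
    ∃ K' L' z, K ⊆ K' ∧ L ⊆ L' ∧ O.RAd U V φ K' L' z := by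
  obtain ⟨⟨K0, a1, a2, a3⟩, L0, b1, b2, b3⟩ := h
  have c1 := b1.union hL
  have c2 : L0 ∪ L ⊆ V := union_subset b2 LV
  have c3 := (a1.union hK).union c1
  have c4 : K0 ∪ K ∪ (L0 ∪ L) ⊆ U := union_subset (union_subset a2 KU) (c2.trans hVU)
  obtain ⟨z, hz, hf⟩ := O.exists_z hU hV c3 c1 c4 c2
  exact ⟨_, _, z, subset_union_right.trans subset_union_left, subset_union_right,
    c3, c1, c4, c2, subset_union_right, van_supp (subset_union_left.trans subset_union_left) a3,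
    van_supp subset_union_left b3, hz, hf⟩

/-- two admissible chains differ by the boundary of a small chain -/
theorem RAd.sub_eq [T2Space X] (hU : IsOpen U) (hV : IsOpen V) (h : O.RAd U V φ K L z)
    (h' : O.RAd U V φ K L z') : ∃ w ∈ (On (U ∩ Lᶜ)).ch k (d + 2), ∃ y ∈ (On V).ch k (d + 2),
      z - z' - bd k w - bd k y ∈ (On Kᶜ).ch k (d + 1) := by
  obtain ⟨w, hw⟩ := mem_Nul.1 (h.hf.sub_mem h'.hf)
  have e : (Sm {U ∩ Lᶜ, V, Kᶜ}).ch k (d + 1) =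
      (On (U ∩ Lᶜ)).ch k (d + 1) ⊔ ((On V).ch k (d + 1) ⊔ (On Kᶜ).ch k (d + 1)) := by
    rw [Sm_insert, Sb.ch_sup, Sm_pair, Sb.ch_sup]
  obtain ⟨s, hs, b, -, hb⟩ := smChS_holds k X univ {U ∩ Lᶜ, V, Kᶜ}
    (by
      rintro W (rfl | rfl | rfl)
      exacts [hU.inter h.hL.isClosed.isOpen_compl, hV, h.hK.isClosed.isOpen_compl])
    (fun x _ => by
      by_cases h1 : x ∈ K
      · by_cases h2 : x ∈ L
        · exact ⟨V, by simp, h.LV h2⟩
        · exact ⟨U ∩ Lᶜ, by simp, h.KU h1, h2⟩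
      · exact ⟨Kᶜ, by simp, h1⟩) (d + 1) w (mem_ch_univ w) (by
      rw [e, show bd k w = z - z' - (z - z' - bd k w) by abel]
      refine Submodule.sub_mem _ ?_ (Submodule.mem_sup_right (Submodule.mem_sup_right hw))
      rw [← sup_assoc]
      exact Submodule.mem_sup_left (Submodule.sub_mem _ h.hz h'.hz))
  have hs' := Sb.ch_mono Sb.inf_le_right hs
  rw [Sm_insert, Sb.ch_sup, Sm_pair, Sb.ch_sup] at hs'
  obtain ⟨w1, h1, _, hs2, rfl⟩ := Submodule.mem_sup.1 hs'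
  obtain ⟨w2, h2, w3, h3, rfl⟩ := Submodule.mem_sup.1 hs2
  have e2 := congrArg (bd k) hb
  rw [bd_bd, map_sub, map_add, map_add] at e2
  refine ⟨w1, h1, w2, h2, ?_⟩
  have := Submodule.add_mem _ hw (Sb.bd_mem h3)
  rwa [sub_eq_zero.1 e2.symm, show z - z' - (bd k w1 + (bd k w2 + bd k w3)) + bd k w3 =
    z - z' - bd k w1 - bd k w2 by abel] at this

end coef

variable {φ ψ : Co k i X} {c c' : Ch k j X}

theorem RDu.congr (h : O.RDu D U V φ c) (e : c - c' ∈ RN k U V j) : O.RDu D U V φ c' :=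
  let ⟨K, L, z, a, f⟩ := h
  ⟨K, L, z, a, by simpa using Submodule.add_mem _ f e⟩

theorem RDu.mem_RZ (h : O.RDu D U V φ c) : φ ∈ RZ k U V k i :=
  let ⟨_, _, _, a, _⟩ := h; a.mem_RZ

theorem Du.rdu (h : O.Du D U φ c) (hc : cob k φ = 0) : O.RDu D U V φ c :=
  let ⟨K, z, a, b, c, d, e, f⟩ := h
  ⟨K, ∅, z, ⟨a, isCompact_empty, b, empty_subset _, empty_subset _, c,
    hc ▸ Submodule.zero_mem _, Submodule.mem_sup_left (by simpa using d), e⟩, B_le_RN f⟩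

theorem RDu.smul (hD : CapLike k X D) (h : O.RDu D U V φ c) (r : k) :
    O.RDu D U V (r • φ) (r • c) :=
  let ⟨K, L, z, a, f⟩ := h
  ⟨K, L, z, { a with hφ := Submodule.smul_mem _ r a.hφ
                     hθ := by rw [map_smul]; exact Submodule.smul_mem _ r a.hθ }, by
    rw [hD.smul, ← smul_sub]; exact Submodule.smul_mem _ r f⟩

theorem RDu.neg (hD : CapLike k X D) (h : O.RDu D U V φ c) : O.RDu D U V (-φ) (-c) := by
  simpa using h.smul hD (-1)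

variable [T2Space X]

theorem RAd.indep (hD : CapLike k X D) (hij : i + j = d + 1) (hU : IsOpen U) (hV : IsOpen V)
    (h : O.RAd U V φ K L z) (h' : O.RAd U V φ K L z') : D j φ z - D j φ z' ∈ RN k U V j := by
  obtain ⟨w, hw, y, hy, e⟩ := h.sub_eq hU hV h'
  have e1 := hD.zero (j := j) _ φ _ h.hφ e
  rw [map_sub, map_sub, map_sub, _root_.sub_sub, sub_eq_zero] at e1
  obtain ⟨s, t, e2⟩ := hD.bd hij
  have h1 := e2 φ w
  rw [hD.zero _ _ w h.hθ (ch_mono inter_subset_right hw), smul_zero, add_zero] at h1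
  have h2 : D j φ (bd k w) = ((s⁻¹ : kˣ) : k) • bd k (D (j + 1) φ w) := by
    rw [h1, smul_smul, Units.inv_mul, one_smul]
  rw [e1, h2]
  exact Submodule.add_mem_sup
    (Submodule.smul_mem _ _ (Sb.bd_mem_B (hD.mem U φ w (ch_mono inter_subset_left hw))))
    (hD.mem V φ _ (Sb.bd_mem hy))

variable (hD : CapLike k X D) (hU : IsOpen U) (hV : IsOpen V) (hVU : V ⊆ U)
include hD hU hV hVU

theorem RDu.spec (hij : i + j = d + 1) (h : O.RDu D U V φ c) (ha : O.RAd U V φ K L z) :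
    D j φ z - c ∈ RN k U V j := by
  obtain ⟨K1, L1, y, hb, e⟩ := h
  obtain ⟨K2, L2, w, a1, a2, hc⟩ := O.exists_rad hU hV hVU ha.mem_RZ (ha.hK.union hb.hK)
    (ha.hL.union hb.hL) (union_subset ha.KU hb.KU) (union_subset ha.LV hb.LV)
  have h1 := ha.indep hD hij hU hV
    (ha.shrink hc (subset_union_left.trans a1) (subset_union_left.trans a2))
  have h2 := (hb.shrink hc (subset_union_right.trans a1) (subset_union_right.trans a2)).indep
    hD hij hU hV hb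
  simpa using Submodule.add_mem _ (Submodule.add_mem _ h1 h2) e

theorem RDu.unique (hij : i + j = d + 1) (h : O.RDu D U V φ c) (h' : O.RDu D U V φ c') :
    c - c' ∈ RN k U V j := by
  obtain ⟨K, L, y, a, e⟩ := h'
  simpa using Submodule.sub_mem _ e (h.spec hD hU hV hVU hij a)

theorem RDu.add (hij : i + j = d + 1) (h : O.RDu D U V φ c) (h' : O.RDu D U V ψ c') :
    O.RDu D U V (φ + ψ) (c + c') := by
  obtain ⟨K1, L1, z1, -, -, a⟩ := O.exists_rad hU hV hVU h.mem_RZ isCompact_empty isCompact_empty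
    (empty_subset _) (empty_subset _)
  obtain ⟨K2, L2, z2, b1, b2, b⟩ := O.exists_rad hU hV hVU h'.mem_RZ a.hK a.hL a.KU a.LV
  have a' : O.RAd U V φ K2 L2 z2 := { b with hφ := van_supp b1 a.hφ, hθ := van_supp b2 a.hθ }
  refine ⟨K2, L2, z2, { b with hφ := Submodule.add_mem _ a'.hφ b.hφ
                               hθ := by rw [map_add]; exact Submodule.add_mem _ a'.hθ b.hθ }, ?_⟩
  have := Submodule.add_mem _ (h.spec hD hU hV hVU hij a') (h'.spec hD hU hV hVU hij b)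
  rwa [hD.add, add_sub_add_comm]


omit hU hV hVU [T2Space X] in
/-- compatibility with the connecting maps -/
theorem rad_bd (hij : i + j = d) : ∃ u : kˣ, ∀ (φ : Co k i X) K L z, O.RAd U V φ K L z →
    O.Du D V (cob k φ) ((u : k) • bd k (D (j + 1) φ z)) := by
  obtain ⟨s, t, e⟩ := hD.bd hij
  refine ⟨t⁻¹, fun φ K L z h => ?_⟩
  obtain ⟨z1, h1, z2, h2, rfl⟩ := Submodule.mem_sup.1 h.hz
  have h1L := ch_mono inter_subset_right h1
  refine ⟨L, z2, h.hL, h.LV, h.hθ, h2, (h.hf.mono h.hL h.hK h.LK).of_sub (by simpa using h1L), ?_⟩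
  rw [e, hD.zero _ φ _ h.hφ h.hf.rc, map_add, hD.zero _ (cob k φ) z1 h.hθ h1L]
  simp [smul_smul]

omit hD in
theorem rdu_exists (h : φ ∈ RZ k U V k i) : ∃ K L z, O.RAd U V φ K L z ∧ O.RDu D U V φ (D j φ z) := by
  obtain ⟨K, L, z, -, -, a⟩ := O.exists_rad hU hV hVU h isCompact_empty isCompact_empty
    (empty_subset _) (empty_subset _)
  exact ⟨K, L, z, a, K, L, z, a, by simp⟩

end Ori

end ring

variable {k : Type} [Field k] {d : ℕ} [T2Space X] [ChartedSpace (EE (d + 1)) X] {O : Ori k d X}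
  {D : ∀ {n : ℕ} (j : ℕ) {i : ℕ}, Co k i X → Ch k n X →ₗ[k] Ch k j X}
  (hP : PdS) (hO : O.ND) (hD : CapLike k X D) (hU : IsOpen U) (hV : IsOpen V) (hVU : V ⊆ U)
include hP hO hD hU hV hVU

/-- **relative duality, surjectivity** -/
theorem rel_surj {i j : ℕ} (hij : i + j = d + 1) {c : Ch k j X} (hc : c ∈ (On U).ch k j)
    (hz : c ∈ rcy k V j) : ∃ φ : Co k i X, O.RDu D U V φ c := by
  obtain ⟨sU, iU⟩ := hP k d X O hO D hD U hU
  obtain ⟨sV, -⟩ := hP k d X O hO D hD V hV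
  cases j with
  | zero =>
    obtain ⟨φ, -, a, b⟩ := sU i 0 hij c hc trivial
    exact ⟨φ, b.rdu a⟩
  | succ j =>
    have hz' : bd k c ∈ (On V).ch k j := hz
    obtain ⟨u, hu⟩ := Ori.rad_bd (O := O) (U := U) (V := V) (i := i) (j := j) hD (by omega)
    have hBU : (u : k) • bd k c ∈ (On U).B k j := Submodule.smul_mem _ _ (Sb.bd_mem_B hc)
    obtain ⟨θ, t1, t2, t3⟩ := sV (i + 1) j (by omega) ((u : k) • bd k c)
      (Submodule.smul_mem _ _ hz') (Sb.B_le_cyc hBU)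
    obtain ⟨a, a1, a2⟩ := iU i θ (Cc_mono hVU t1) t2 fun j' hj => by
      obtain rfl : j' = j := by omega
      exact (t3.mono hVU).congr (by simpa using hBU)
    obtain ⟨K, L, z, ha, hr⟩ := Ori.rdu_exists (O := O) (D := D) (j := j + 1) hU hV hVU
      (show a ∈ RZ k U V k i from ⟨a1, show cob k a ∈ _ from a2 ▸ t1⟩)
    have f2 := hu a K L z ha
    rw [a2] at f2
    obtain ⟨w, hw, hw'⟩ := t3.unique smChS_holds fundS_holds hD (by omega) hV f2 t2
    have hb : bd k (((u⁻¹ : kˣ) : k) • w) = bd k c - bd k (D (j + 1) a z) := by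
      rw [map_smul, hw', ← smul_sub, smul_smul, Units.inv_mul, one_smul]
    have hw2 := Submodule.smul_mem _ ((u⁻¹ : kˣ) : k) hw
    obtain ⟨φ, -, p2, p3⟩ := sU i (j + 1) hij (c - D (j + 1) a z - ((u⁻¹ : kˣ) : k) • w)
      (Submodule.sub_mem _ (Submodule.sub_mem _ hc (hD.mem U a z (ha.on hVU))) (ch_mono hVU hw2))
      (by change bd k _ = 0; rw [map_sub, map_sub, hb, sub_self])
    refine ⟨a + φ, (hr.add hD hU hV hVU hij (p3.rdu p2)).congr ?_⟩
    rw [show D (j + 1) a z + (c - D (j + 1) a z - ((u⁻¹ : kˣ) : k) • w) - c =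
      -(((u⁻¹ : kˣ) : k) • w) by abel]
    exact ch_le_RN (Submodule.neg_mem _ hw2)






end Crest.Agent.N255.Tp

end
end

-- ▼ part N255/Wn/Det
section

/-!
# Row 255 (helper46): window detection relative to the end

In an acyclic manifold which is cut by a set `A`, every chain of a window with boundary far away is, modulo
boundaries and far chains, the cap product of the wall with the sum of a left and of a right cocycle.
-/

set_option autoImplicit false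
open Set Filter Topology

noncomputable section

namespace Crest.Agent.N255.Wn

open Crest.Agent.N255.Tp

variable {X : Type} [TopologicalSpace X] {n i j d : ℕ} {𝒰 : Set (Set X)}
  {A A' L R L' R' W F T U V K : Set X}

section ring

variable {k : Type} [CommRing k]
  {D : ∀ {n : ℕ} (j : ℕ) {i : ℕ}, Co k i X → Ch k n X →ₗ[k] Ch k j X}

theorem loc (hD : CapLike k X D) {τ : Co k i X} {P : Sb X}
    (h : ∀ σ ∈ P.S n, τ ∈ (On (range σ)).van k k i ∨ range σ ⊆ F) {z : Ch k n X}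
    (hz : z ∈ P.ch k n) : D j τ z ∈ (On F).ch k j :=
  Sb.map_mem (D j τ) _ (fun σ hσ => (h σ hσ).elim
    (fun h => by rw [hD.zero _ τ _ h (Sb.sg_mem (mem_On.2 subset_rfl))]; exact Submodule.zero_mem _)
    fun h => hD.mem _ τ _ (Sb.sg_mem h)) hz

theorem loc_sm (hD : CapLike k X D) {τ : Co k i X}
    (h : ∀ Y ∈ 𝒰, τ ∈ (On Y).van k k i ∨ Y ∩ T ⊆ F) {z : Ch k n X}
    (hz : z ∈ (Sm 𝒰).ch k n) (hT : z ∈ (On T).ch k n) : D j τ z ∈ (On F).ch k j :=
  loc hD (P := (Sm 𝒰).inf (On T))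
    (fun _ ⟨⟨Y, hY, h1⟩, h2⟩ => (h Y hY).imp (fun h => van_mono h1 h)
      fun h => (subset_inter h1 h2).trans h) (Sml.mem_inf hz hT)

theorem loc_zero (hD : CapLike k X D) {τ : Co k i X} (h : τ ∈ (Sm 𝒰).van k k i) {z : Ch k n X}
    (hz : z ∈ (Sm 𝒰).ch k n) : D j τ z = 0 :=
  eq_zero_of_ch_empty (loc_sm hD (T := univ)
    (fun _ hY => Or.inl (Sb.van_mono (On_le_Sm hY) h)) hz (mem_ch_univ z))

theorem D_sub (hD : CapLike k X D) (φ ψ : Co k i X) (z : Ch k n X) :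
    D j (φ - ψ) z = D j φ z - D j ψ z := by
  rw [sub_eq_add_neg, hD.add, hD.neg, sub_eq_add_neg]

/-- a cap with a coboundary -/
theorem D_cob (hD : CapLike k X D) (h : i + j = n) {η : Co k i X} {z : Ch k (n + 1) X}
    (h1 : D (j + 1) η z ∈ (On W).ch k (j + 1)) (h2 : D j η (bd k z) ∈ (On F).ch k j) :
    D j (cob k η) z ∈ RN k W F j := by
  obtain ⟨s, t, e⟩ := hD.bd h
  have : D j (cob k η) z = ((t⁻¹ : kˣ) : k) • (bd k (D (j + 1) η z) - (s : k) • D j η (bd k z)) := by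
    rw [e, add_sub_cancel_left, smul_smul, Units.inv_mul, one_smul]
  rw [this]
  exact Submodule.smul_mem _ _ (Submodule.sub_mem _ (B_le_RN (Sb.bd_mem_B h1))
    (ch_le_RN (Submodule.smul_mem _ _ h2)))

/-- a cap of a boundary -/
theorem D_bd (hD : CapLike k X D) (h : i + j = n) {η : Co k i X} {z : Ch k (n + 1) X}
    (h1 : D (j + 1) η z ∈ (On W).ch k (j + 1)) (h2 : D j (cob k η) z = 0) :
    D j η (bd k z) ∈ (On W).B k j := by
  obtain ⟨s, t, e⟩ := hD.bd h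
  have : D j η (bd k z) = ((s⁻¹ : kˣ) : k) • bd k (D (j + 1) η z) := by
    rw [e, h2, smul_zero, add_zero, smul_smul, Units.inv_mul, one_smul]
  rw [this]
  exact Submodule.smul_mem _ _ (Sb.bd_mem_B h1)

/-- caps with a cocycle of `W` respect the null chains of the pair -/
theorem D_RN (hD : CapLike k X D) (h : i + j = n) {η : Co k i X} (hη : η ∈ (On W).Z k k i)
    {z : Ch k n X} (hz : z ∈ RN k W F n) : D j η z ∈ RN k W F j := by
  obtain ⟨_, ⟨b, hb, rfl⟩, y, hy, rfl⟩ := Submodule.mem_sup.1 hz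
  rw [map_add]
  exact Submodule.add_mem _ (B_le_RN (D_bd hD h (hD.mem _ _ _ hb) (hD.zero _ _ _ hη hb)))
    (ch_le_RN (hD.mem _ _ _ hy))

theorem RN_mono (h : U ⊆ W) (h' : V ⊆ F) : RN k U V n ≤ RN k W F n :=
  sup_le_sup (B_mono h) (ch_mono h')

/-- independence of the small fundamental chain -/
theorem D_indep (hD : CapLike k X D) (ho : ∀ Y ∈ 𝒰, IsOpen Y) (hc : univ ⊆ ⋃₀ 𝒰)
    (h : i + j = d + 1) {O : Ori k d X} {ω : Co k i X} (hω : ω ∈ (Sm 𝒰).Z k k i)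
    (hW : ∀ Y ∈ 𝒰, ω ∈ (On Y).van k k i ∨ Y ⊆ W) (hF : W \ K ⊆ F) {z z' : Ch k (d + 1) X}
    (hz : z ∈ (Sm 𝒰).ch k (d + 1)) (hz' : z' ∈ (Sm 𝒰).ch k (d + 1)) (hf : O.Fund K z)
    (hf' : O.Fund K z') : D j ω z - D j ω z' ∈ RN k W F j := by
  obtain ⟨w, hw⟩ := mem_Nul.1 (hf.sub_mem hf')
  have sm : ∀ {m} (c : Ch k m X), Sml.rho k 𝒰 m c ∈ (Sm 𝒰).ch k m := fun c =>
    Sb.ch_mono Sb.inf_le_right (Sml.rho_inf k ho hc (mem_ch_univ c))
  have e : z - z' = bd k (Sml.rho k 𝒰 _ w) + Sml.rho k 𝒰 _ (z - z' - bd k w) := by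
    rw [Sml.bd_rho, ← map_add, add_sub_cancel, Sml.rho_of_sm k 𝒰 (Submodule.sub_mem _ hz hz')]
  rw [← map_sub, e, map_add]
  refine Submodule.add_mem _ (B_le_RN (D_bd hD h ?_ (loc_zero hD hω (sm w)))) (ch_le_RN ?_)
  · exact loc_sm hD (T := univ) (fun Y hY => (hW Y hY).imp id fun h => inter_subset_left.trans h)
      (sm w) (mem_ch_univ _)
  · exact loc_sm hD (fun Y hY => (hW Y hY).imp id fun h => (inter_subset_inter_left _ h).trans hF)
      (sm _) (Sml.rho_mem k 𝒰 _ hw)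

variable {M M' M'' : Type} [AddCommGroup M] [Module k M] [AddCommGroup M'] [Module k M']
  [AddCommGroup M''] [Module k M'']

theorem cup_van_l (μ : M →ₗ[k] M' →ₗ[k] M'') {φ : Co M i X} (h : φ ∈ (On U).van k M i)
    (ψ : Co M' j X) : cup μ n φ ψ ∈ (On U).van k M'' n := fun σ hσ => by
  rw [cup, h _ ((range_fr _ σ).trans hσ), map_zero, LinearMap.zero_apply]

theorem cup_van_r (μ : M →ₗ[k] M' →ₗ[k] M'') (φ : Co M i X) {ψ : Co M' j X}
    (h : ψ ∈ (On U).van k M' j) : cup μ n φ ψ ∈ (On U).van k M'' n := fun σ hσ => by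
  rw [cup, h _ ((range_bk _ σ).trans hσ), map_zero]

theorem van_sm {φ : Co M n X} (h : ∀ Y ∈ 𝒰, φ ∈ (On Y).van k M n) : φ ∈ (Sm 𝒰).van k M n :=
  fun σ ⟨Y, hY, hσ⟩ => h Y hY σ hσ

theorem cap'_cup {a b m : ℕ} (h : a + j = m) (h' : b + m = n) (φ : Co k a X) (ψ : Co k b X)
    (z : Ch k n X) :
    cap' j (cup (LinearMap.mul k k) (a + b) φ ψ) z = cap' j φ (cap' m ψ z) := by
  refine ch_ext' (S := cap' j (cup (LinearMap.mul k k) (a + b) φ ψ))
    (T := (cap' j φ).comp (cap' m ψ)) (fun σ => ?_) z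
  have e1 : fr a (bk (a + b) σ) = bk a (fr m σ) := by
    rw [Cp.fr_eq, Cp.bk_eq, Cp.bk_eq, Cp.fr_eq, Cp.sb_sb, Cp.sb_sb]
    exact Cp.sb_congr σ fun t ht => by omega
  have e2 : bk b (bk (a + b) σ) = bk b σ := by
    rw [Cp.bk_eq, Cp.bk_eq, Cp.bk_eq, Cp.sb_sb]
    exact Cp.sb_congr σ fun t ht => by omega
  have e3 : fr j (fr m σ) = fr j σ := by
    rw [Cp.fr_eq, Cp.fr_eq, Cp.fr_eq, Cp.sb_sb]
    exact Cp.sb_congr σ fun t ht => by omega
  simp only [cap', LinearMap.comp_apply, ev_sg, map_smul, cup, LinearMap.mul_apply', e1, e2, e3,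
    smul_smul, mul_comm]

variable (k) in
open Classical in
/-- the indicator of `A` as a cochain of degree zero -/
def cut (A : Set X) : Co k 0 X := fun σ => if range σ ⊆ A then 1 else 0

theorem cut_one {σ : Sx 0 X} (h : range σ ⊆ A) : cut k A σ = 1 := if_pos h

theorem cut_zero {σ : Sx 0 X} (h : range σ ⊆ Aᶜ) : cut k A σ = 0 :=
  if_neg fun h' => by
    obtain ⟨x, hx⟩ := range_nonempty σ
    exact h hx (h' hx)

theorem cut_van : cut k A ∈ (On Aᶜ).van k k 0 := fun _ h => cut_zero h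

theorem one_sub_cut_van : (fun _ => 1) - cut k A ∈ (On A).van k k 0 := fun σ h => by
  simp [cut_one h]

theorem cob_one : cob k (fun _ : Sx 0 X => (1 : k)) = 0 := by
  funext σ; simp [cob_apply, Fin.sum_univ_two]

theorem cob_cut_r : cob k (cut k A) ∈ (On Aᶜ).van k k 1 := Sb.cob_mem cut_van

theorem cob_cut_l : cob k (cut k A) ∈ (On A).van k k 1 := by
  have := Submodule.neg_mem _ (Sb.cob_mem (one_sub_cut_van (k := k) (A := A)))
  simpa [cob_one] using this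

/-- the wall of the cut `A` in the chain `z` -/
def wall (A : Set X) (z : Ch k (n + 1) X) : Ch k n X := cap' n (cob k (cut k A)) z

/-- a cut `A`, a cover `𝒰`, the big sides `L`, `R`, the small sides `L'`, `R'` and the window `W` -/
structure Cut (𝒰 : Set (Set X)) (A L R L' R' W : Set X) : Prop where
  op : ∀ Y ∈ 𝒰, IsOpen Y
  cov : univ ⊆ ⋃₀ 𝒰
  l : ∀ Y ∈ 𝒰, Y ⊆ Aᶜ ∨ Y ⊆ L
  r : ∀ Y ∈ 𝒰, Y ⊆ A ∨ Y ⊆ R
  lA : L' ⊆ A
  rA : R' ⊆ Aᶜ
  w : ∀ Y ∈ 𝒰, Y ⊆ L' ∨ Y ⊆ R' ∨ Y ⊆ W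

theorem cD : CapLike k X fun j _ φ => cap' j φ := (capS_holds k X).2

theorem cD' : CapLike k X fun j _ φ => cap j φ := (capS_holds k X).1

namespace Cut

variable (C : Cut 𝒰 A L R L' R' W)
include C

theorem alt {η : Co M i X} (hl : η ∈ (On L').van k M i) (hr : η ∈ (On R').van k M i) :
    ∀ Y ∈ 𝒰, η ∈ (On Y).van k M i ∨ Y ⊆ W := fun Y hY => by
  rcases C.w Y hY with h | h | h
  exacts [Or.inl (van_mono h hl), Or.inl (van_mono h hr), Or.inr h]

theorem alt' {η : Co M i X} (hl : η ∈ (On L').van k M i) (hr : η ∈ (On R').van k M i)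
    (h : W ∩ T ⊆ F) : ∀ Y ∈ 𝒰, η ∈ (On Y).van k M i ∨ Y ∩ T ⊆ F := fun Y hY =>
  (C.alt hl hr Y hY).imp id fun h' => (inter_subset_inter_left _ h').trans h

theorem wall_mem {z : Ch k (n + 1) X} (hz : z ∈ (Sm 𝒰).ch k (n + 1)) :
    wall A z ∈ (On W).ch k n :=
  loc_sm cD (C.alt' (van_mono C.lA cob_cut_l) (van_mono C.rA cob_cut_r) inter_subset_left) hz
    (mem_ch_univ z)

theorem bd_wall {z : Ch k (n + 2) X} (hz : z ∈ (Sm 𝒰).ch k (n + 2))
    (hb : bd k z ∈ (On Kᶜ).ch k (n + 1)) (hF : W \ K ⊆ F) : bd k (wall A z) ∈ (On F).ch k n := by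
  rw [wall, bd_cap' (by omega), cob_cob, (cD (k := k) (X := X)).zero', smul_zero, sub_zero]
  exact loc_sm cD (C.alt' (van_mono C.lA cob_cut_l) (van_mono C.rA cob_cut_r) hF) (Sb.bd_mem hz) hb

/-- two cuts with the same small sides have homologous walls -/
theorem wall_sub (hl : L' ⊆ A') (hr : R' ⊆ A'ᶜ) {z : Ch k (n + 1) X} (hz : z ∈ (Sm 𝒰).ch k (n + 1))
    (hb : bd k z ∈ (On Kᶜ).ch k n) (hF : W \ K ⊆ F) : wall A z - wall A' z ∈ RN k W F n := by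
  have h1 : cut k A - cut k A' ∈ (On L').van k k 0 := fun σ h => by
    simp [cut_one (h.trans hl), cut_one (h.trans C.lA)]
  have h2 : cut k A - cut k A' ∈ (On R').van k k 0 := fun σ h => by
    simp [cut_zero (h.trans hr), cut_zero (h.trans C.rA)]
  have := D_cob cD (zero_add n) (W := W) (F := F) (η := cut k A - cut k A') (z := z)
    (loc_sm cD (C.alt' h1 h2 inter_subset_left) hz (mem_ch_univ z))
    (loc_sm cD (C.alt' h1 h2 hF) (Sb.bd_mem hz) hb)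
  rwa [map_sub, D_sub cD] at this

/-- the wall does not depend on the small fundamental chain -/
theorem wall_indep {O : Ori k d X} (hF : W \ K ⊆ F) {z z' : Ch k (d + 1) X}
    (hz : z ∈ (Sm 𝒰).ch k (d + 1)) (hz' : z' ∈ (Sm 𝒰).ch k (d + 1)) (hf : O.Fund K z)
    (hf' : O.Fund K z') : wall A z - wall A z' ∈ RN k W F d :=
  D_indep cD C.op C.cov (by omega) (by rw [Sb.mem_Z, cob_cob]; exact Submodule.zero_mem _)
    (C.alt (van_mono C.lA cob_cut_l) (van_mono C.rA cob_cut_r)) hF hz hz' hf hf'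

end Cut

/-- the cochain which is `a` on `A` and `b` off `A` -/
def glue (A : Set X) (a b : Co k i X) : Co k i X :=
  cup (LinearMap.mul k k) i a (cut k A) + cup (LinearMap.mul k k) i b ((fun _ => 1) - cut k A)

theorem glue_l (a b : Co k i X) : glue A a b - a ∈ (On A).van k k i := fun σ h => by
  simp [glue, cup, fr_self, cut_one ((range_bk 0 σ).trans h)]

theorem glue_r (a b : Co k i X) : glue A a b - b ∈ (On Aᶜ).van k k i := fun σ h => by
  simp [glue, cup, fr_self, cut_zero ((range_bk 0 σ).trans h)]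

theorem Cut.cob_glue (C : Cut 𝒰 A L R L' R' W) {a b : Co k i X} (ha : a ∈ (On L).Z k k i)
    (hb : b ∈ (On R).Z k k i) : cob k (glue A a b) -
      cup (LinearMap.mul k k) (i + 1) ((-1 : k) ^ i • (a - b)) (cob k (cut k A)) ∈
        (Sm 𝒰).van k k (i + 1) := by
  have e : cob k (glue A a b) -
      cup (LinearMap.mul k k) (i + 1) ((-1 : k) ^ i • (a - b)) (cob k (cut k A)) =
      cup (LinearMap.mul k k) (i + 1) (cob k a) (cut k A) +
        cup (LinearMap.mul k k) (i + 1) (cob k b) ((fun _ => 1) - cut k A) := by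
    rw [glue, map_add, cupS_holds k k k k _ X i 0 i rfl, cupS_holds k k k k _ X i 0 i rfl, map_sub,
      cob_one]
    funext σ
    simp only [cup, Pi.add_apply, Pi.sub_apply, Pi.smul_apply, LinearMap.mul_apply', smul_eq_mul,
      Pi.zero_apply]
    ring
  rw [e]
  refine van_sm fun Y hY => Submodule.add_mem _ ?_ ?_
  · exact (C.l Y hY).elim (fun h => cup_van_r _ _ (van_mono h cut_van))
      fun h => cup_van_l _ (van_mono h ha) _
  · exact (C.r Y hY).elim (fun h => cup_van_r _ _ (van_mono h one_sub_cut_van))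
      fun h => cup_van_l _ (van_mono h hb) _

theorem exists_two (hd : Disjoint L' R') (a b : Co M i X) :
    ∃ e : Co M i X, e - a ∈ (On L').van k M i ∧ e - b ∈ (On R').van k M i := by
  refine ⟨(On L').res a + (On R').res b, fun σ h => ?_, fun σ h => ?_⟩
  · have : σ ∉ (On R').S i := fun h' => by
      obtain ⟨x, hx⟩ := range_nonempty σ
      exact disjoint_left.1 hd (h hx) (h' hx)
    simp [Sb.res_of_mem a h, Sb.res_of_notMem b this]
  · have : σ ∉ (On L').S i := fun h' => by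
      obtain ⟨x, hx⟩ := range_nonempty σ
      exact disjoint_left.1 hd (h' hx) (h hx)
    simp [Sb.res_of_mem b h, Sb.res_of_notMem a this]

end ring

variable {k : Type} [Field k]

theorem mem_RN {c : Ch k n X}
    (h : ∀ f ∈ (On W).Z k k n, f ∈ (On F).van k k n → ev k f c = 0) : c ∈ RN k W F n := by
  by_contra hc
  obtain ⟨f, h1, h2⟩ := (uctS_holds k X n).1 _ c hc
  exact h2 (h f (Det.mem_Z fun x hx => h1 x (B_le_RN hx))
    fun σ hσ => (ev_sg f σ).symm.trans (h1 _ (ch_le_RN (Sb.sg_mem hσ))))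

theorem ev_RN {M : Type} [AddCommGroup M] [Module k M] {f : Co M n X} (h : f ∈ (On W).Z k M n)
    (h' : f ∈ (On F).van k M n) {c : Ch k n X} (hc : c ∈ RN k W F n) : ev k f c = 0 := by
  obtain ⟨b, hb, y, hy, rfl⟩ := Submodule.mem_sup.1 hc
  rw [map_add, Sb.ev_B h hb, Sb.ev_eq_zero h' hy, add_zero]

/-- the two cap products agree up to sign on relative cycles -/
theorem cap_sub_cap' (h : i + j = n + 1) {η : Co k i X} (hη : η ∈ (On W).Z k k i)
    {w : Ch k (n + 1) X} (hw : w ∈ (On W).ch k (n + 1)) (hb : bd k w ∈ (On F).ch k n) :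
    cap j η w - (-1 : k) ^ (i * j) • cap' j η w ∈ RN k W F j :=
  mem_RN fun f hf hf' => by
    rw [map_sub, map_smul, ← ev_cup, ← ev_cup', ev_cup_comm _ h hη hf (Or.inr hf') hw hb, mul_flip,
      sub_self]

variable [T2Space X]

section
variable [ChartedSpace (EE (d + 1)) X] {O : Ori k d X}
  {D : ∀ {n : ℕ} (j : ℕ) {i : ℕ}, Co k i X → Ch k n X →ₗ[k] Ch k j X}

/-- linking numbers with a cycle which can be pushed to infinity inside `V` vanish -/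
theorem ex_off (hO : O.ND) (hX : Acy k (univ : Set X) univ) (hD : CapLike k X D) (hV : IsOpen V)
    (hij : i + 1 + 1 + j = d + 1) {φ : Co k (i + 1) X} {c : Ch k j X}
    (hφ : O.Du D V (cob k φ) c) (h0 : c ∈ cyc k X j)
    (hc : ∀ K, IsCompact K → c ∈ (On V).B k j ⊔ (On (V \ K)).ch k j) :
    φ ∈ (On Vᶜ).Ex k k (i + 1) := by
  refine Det.ex_of_cyc _ φ fun x hx hx0 => ?_
  obtain ⟨w, -, rfl⟩ := hX (i + 1) ⟨mem_ch_univ x, hx0⟩
  obtain ⟨b, hb, c', hc', rfl⟩ := Submodule.mem_sup.1 (hc _ (isCompact_car w))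
  obtain ⟨θ, ⟨K, -, hK, t1⟩, t2, t3⟩ :=
    (pdS_holds k d X O hO D hD _ (hV.sdiff (isCompact_car w).isClosed)).1 (i + 1 + 1) j hij c' hc'
      (by simpa using Submodule.sub_mem _ h0 (Sb.B_le_cyc hb))
  have d1 := (hφ.add smChS_holds fundS_holds hD hij hV ((t3.mono sdiff_subset).neg hD) (cob_cob φ)
    (by rw [map_neg, t2, neg_zero])).congr (c' := 0) (by simpa using hb)
  obtain ⟨ρ, ⟨K', -, hK', r1⟩, r2⟩ := (pdS_holds k d X O hO D hD V hV).2 (i + 1) _ d1.mem_Cc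
    (by rw [map_add, map_neg, t2, cob_cob, neg_zero, add_zero]) fun j' hj => by
      obtain rfl : j' = j := by omega
      exact d1
  have e1 : ev k ρ (bd k w) = 0 := Sb.ev_eq_zero r1 (ch_mono (compl_subset_compl.2 hK') hx)
  have e2 : ev k θ w = 0 :=
    Sb.ev_eq_zero t1 (mem_ch_iff_car.2 fun x hx hx' => (hK hx').2 hx)
  rw [ev_bd, r2, ev_add, ev_neg, e2, neg_zero, add_zero] at e1
  rw [ev_bd, e1]

end

variable [ChartedSpace (EE (d + 1 + 1)) X] {O : Ori k (d + 1) X}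

/-- the hypotheses of window detection: `(U, V)` small window and its far part, `V₁ ⊇ V` the region in
which far cycles are pushed to infinity, `(W, F)` big window and its far part -/
structure Dt (k : Type) [Field k] (i j : ℕ) (U V V₁ L₁ R₁ L R L' R' : Set X)
    (HL HR : Submodule k (Co k (i + 1) X)) : Prop where
  oU : IsOpen U
  oV : IsOpen V
  oV₁ : IsOpen V₁
  VU : V ⊆ U
  VV : V ⊆ V₁
  l₁ : L₁ ⊆ Uᶜ ∩ V₁ᶜ
  r₁ : R₁ ⊆ Uᶜ ∩ V₁ᶜ
  zl : HL ≤ (On L).Z k k (i + 1)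
  zr : HR ≤ (On R).Z k k (i + 1)
  wl : (On L₁).Z k k (i + 1) ≤ HL ⊔ (On L').Ex k k (i + 1)
  wr : (On R₁).Z k k (i + 1) ≤ HR ⊔ (On R').Ex k k (i + 1)
  ll : L' ⊆ L₁
  rr : R' ⊆ R₁
  ea : ∀ K, IsCompact K → (On V).ch k j ⊓ cyc k X j ≤ (On V₁).B k j ⊔ (On (V₁ \ K)).ch k j

variable {V₁ L₁ R₁ : Set X} {HL HR : Submodule k (Co k (i + 1) X)}

/-- **window detection relative to the end**, for the wall of the cut -/
theorem det_wall (hO : O.ND) (hX : Acy k (univ : Set X) univ) (C : Cut 𝒰 A L R L' R' W)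
    (H : Dt k i j U V V₁ L₁ R₁ L R L' R' HL HR) (hij : i + 1 + j = d) (hUW : U ⊆ W) (hVF : V ⊆ F)
    (hF : ∀ Y ∈ 𝒰, Y ⊆ V₁ᶜ ∨ Y ⊆ F) (hK : IsCompact K) (hKF : W \ K ⊆ F)
    {z : Ch k (d + 2) X} (hz : z ∈ (Sm 𝒰).ch k (d + 2)) (hf : O.Fund K z) {c : Ch k (j + 1) X}
    (hc : c ∈ (On U).ch k (j + 1)) (hb : bd k c ∈ (On V).ch k j) :
    ∃ a ∈ HL, ∃ b ∈ HR, c - cap' (j + 1) (a + b) (wall A z) ∈ RN k W F (j + 1) := by
  have hD := cD (k := k) (X := X)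
  obtain ⟨φ, hφ⟩ := rel_surj pdS_holds hO hD H.oU H.oV H.VU (i := i + 1 + 1) (j := j + 1) (by omega)
    hc hb
  obtain ⟨K₁, K₂, z₁, ha, he⟩ := id hφ
  obtain ⟨u, hu⟩ := Ori.rad_bd (O := O) (U := U) (V := V) (i := i + 1 + 1) (j := j) hD (by omega)
  have hBV : bd k (cap' (j + 1) φ z₁) - bd k c ∈ (On V).B k j := by
    obtain ⟨_, ⟨b, -, rfl⟩, y, hy, e⟩ := Submodule.mem_sup.1 he
    rw [← map_sub, ← e, map_add, bd_bd, zero_add]
    exact Sb.bd_mem_B hy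
  have hcy : bd k c ∈ cyc k X j := Sb.B_le_cyc (Sb.bd_mem_B hc)
  obtain ⟨ψ, hψ⟩ := Sb.mem_Ex.1 (ex_off hO hX hD H.oV₁ (i := i + 1) (by omega)
    (((hu φ K₁ K₂ z₁ ha).congr (c' := (u : k) • bd k c)
      (by rw [← smul_sub]; exact Submodule.smul_mem _ _ hBV)).mono H.VV)
    (Submodule.smul_mem _ _ hcy) fun K hK => Submodule.smul_mem _ _ (H.ea K hK ⟨hb, hcy⟩))
  have hcl : ∀ {Y}, Y ⊆ Uᶜ ∩ V₁ᶜ → ψ ∈ (On Y).Z k k (i + 1) := fun hY => by
    have h1 := van_mono ((hY.trans inter_subset_left).trans (compl_subset_compl.2 ha.KU)) ha.hφ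
    have h2 := van_mono (hY.trans inter_subset_right) hψ
    exact Sb.mem_Z.2 (by simpa using Submodule.sub_mem _ h1 h2)
  obtain ⟨a, haL, xa, hxa, ea⟩ := Submodule.mem_sup.1 (H.wl (hcl H.l₁))
  obtain ⟨b, hbR, xb, hxb, eb⟩ := Submodule.mem_sup.1 (H.wr (hcl H.r₁))
  obtain ⟨pa, hpa⟩ := Sb.mem_Ex.1 hxa
  obtain ⟨pb, hpb⟩ := Sb.mem_Ex.1 hxb
  obtain ⟨e, e1, e2⟩ := exists_two (k := k)
    (disjoint_left.2 fun x h h' => C.rA h' (C.lA h)) pa pb
  set η := ψ - cob k e - glue A a b with hη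
  have η1 : η ∈ (On L').van k k (i + 1) := by
    have := Submodule.sub_mem _ (Submodule.sub_mem _ hpa (Sb.cob_mem e1))
      (van_mono C.lA (glue_l a b))
    rwa [show xa - cob k pa - cob k (e - pa) - (glue A a b - a) = η by
      rw [hη, ← ea, map_sub]; abel] at this
  have η2 : η ∈ (On R').van k k (i + 1) := by
    have := Submodule.sub_mem _ (Submodule.sub_mem _ hpb (Sb.cob_mem e2))
      (van_mono C.rA (glue_r a b))
    rwa [show xb - cob k pb - cob k (e - pb) - (glue A a b - b) = η by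
      rw [hη, ← eb, map_sub]; abel] at this
  set h := (-1 : k) ^ (i + 1) • (a - b) with hh
  set ω := cup (LinearMap.mul k k) (i + 1 + 1) h (cob k (cut k A)) with hω
  have hg : cob k (glue A a b) - ω ∈ (Sm 𝒰).van k k (i + 1 + 1) := C.cob_glue (H.zl haL) (H.zr hbR)
  -- a good small chain
  obtain ⟨z', hz', hf'⟩ := fundS_holds k X (d + 1) O (K₁ ∪ K)
    (image2 (· ∩ ·) 𝒰 {U ∩ K₂ᶜ, V, K₁ᶜ}) (ha.hK.union hK)
    (by
      rintro _ ⟨Y, hY, Y', hY', rfl⟩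
      refine (C.op Y hY).inter ?_
      rcases hY' with rfl | rfl | rfl
      exacts [H.oU.inter ha.hL.isClosed.isOpen_compl, H.oV, ha.hK.isClosed.isOpen_compl])
    (fun x _ => by
      obtain ⟨Y, hY, hx⟩ := C.cov (mem_univ x)
      by_cases h1 : x ∈ K₁
      · by_cases h2 : x ∈ K₂
        · exact ⟨_, ⟨Y, hY, V, by simp, rfl⟩, hx, ha.LV h2⟩
        · exact ⟨_, ⟨Y, hY, U ∩ K₂ᶜ, by simp, rfl⟩, hx, ha.KU h1, h2⟩
      · exact ⟨_, ⟨Y, hY, K₁ᶜ, by simp, rfl⟩, hx, h1⟩)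
  have s1 : z' ∈ (Sm 𝒰).ch k (d + 2) := Sb.ch_mono (Sm_le (by
    rintro _ ⟨Y, hY, Y', -, rfl⟩; exact ⟨Y, hY, inter_subset_left⟩)) hz'
  have s2 : z' ∈ (Sm {U ∩ K₂ᶜ, V, K₁ᶜ}).ch k (d + 2) := Sb.ch_mono (Sm_le (by
    rintro _ ⟨Y, -, Y', hY', rfl⟩; exact ⟨Y', hY', inter_subset_right⟩)) hz'
  rw [Sm_insert, Sm_pair, Sb.ch_sup, Sb.ch_sup, ← sup_assoc] at s2
  obtain ⟨z0, h0, z2, h2, ez⟩ := Submodule.mem_sup.1 s2
  have fK := hf'.mono hK (ha.hK.union hK) subset_union_right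
  have f1 : cap' (j + 1) φ z' - c ∈ RN k W F (j + 1) := by
    have := hφ.spec hD H.oU H.oV H.VU (by omega)
      (⟨ha.hK, ha.hL, ha.KU, ha.LV, ha.LK, ha.hφ, ha.hθ, h0,
        (hf'.mono ha.hK (ha.hK.union hK) subset_union_left).of_sub
          (by rw [← ez]; simpa using h2)⟩ : O.RAd U V φ K₁ K₂ z0)
    rw [← ez, map_add, show cap' (j + 1) φ z2 = 0 from hD.zero _ φ _ ha.hφ h2, add_zero]
    exact RN_mono hUW hVF this
  have f2 : cap' (j + 1) (φ - cob k ψ) z' ∈ RN k W F (j + 1) :=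
    ch_le_RN (loc_sm hD (T := univ) (fun Y hY => (hF Y hY).imp (fun h => van_mono h hψ)
      fun h => inter_subset_left.trans h) s1 (mem_ch_univ _))
  have f3 : cap' (j + 1) (cob k η) z' ∈ RN k W F (j + 1) :=
    D_cob hD (by omega) (loc_sm hD (C.alt' η1 η2 inter_subset_left) s1 (mem_ch_univ _))
      (loc_sm hD (C.alt' η1 η2 hKF) (Sb.bd_mem s1) fK.rc)
  have f4 : cap' (j + 1) (cob k (glue A a b) - ω) z' = 0 := loc_zero hD hg s1
  have f5 : cap' (j + 1) ω z' - cap' (j + 1) ω z ∈ RN k W F (j + 1) :=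
    D_indep hD C.op C.cov (by omega)
      (ω := ω) (Sb.mem_Z.2 (by simpa using Submodule.neg_mem _ (Sb.cob_mem hg)))
      (C.alt (cup_van_r _ _ (van_mono C.lA cob_cut_l)) (cup_van_r _ _ (van_mono C.rA cob_cut_r)))
      hKF s1 hz fK hf
  have f6 : cap' (j + 1) ω z = cap' (j + 1) h (wall A z) := cap'_cup (by omega) (by omega) _ _ z
  refine ⟨(-1 : k) ^ (i + 1) • a, HL.smul_mem _ haL, -((-1 : k) ^ (i + 1) • b),
    HR.neg_mem (HR.smul_mem _ hbR), ?_⟩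
  have e3 : φ = φ - cob k ψ + (cob k η + (cob k (glue A a b) - ω + ω)) := by
    rw [hη, map_sub, map_sub, cob_cob]; abel
  have e4 : cap' (j + 1) φ z' = cap' (j + 1) (φ - cob k ψ) z' + (cap' (j + 1) (cob k η) z' +
      (cap' (j + 1) (cob k (glue A a b) - ω) z' + cap' (j + 1) ω z')) := by
    conv_lhs => rw [e3]
    exact (hD.add _ _ _).trans (congrArg _ ((hD.add _ _ _).trans (congrArg _ (hD.add _ _ _))))
  rw [← sub_eq_add_neg, ← smul_sub, ← hh, ← f6]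
  have := Submodule.add_mem _ (Submodule.add_mem _ (Submodule.sub_mem _ f2 f1) f3) f5
  rwa [show cap' (j + 1) (φ - cob k ψ) z' - (cap' (j + 1) φ z' - c) + cap' (j + 1) (cob k η) z' +
    (cap' (j + 1) ω z' - cap' (j + 1) ω z) = c - cap' (j + 1) ω z by rw [e4, f4]; abel] at this

/-- the data of `det_wall` and any chain `w` which is homologous to the wall -/
structure Wl (O : Ori k (d + 1) X) (𝒰 : Set (Set X)) (A L R W F V₁ : Set X) (w : Ch k (d + 1) X) :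
    Prop where
  far : ∀ Y ∈ 𝒰, Y ⊆ V₁ᶜ ∨ Y ⊆ F
  WL : W ⊆ L
  WR : W ⊆ R
  FW : F ⊆ W
  ex : ∃ K z, IsCompact K ∧ W \ K ⊆ F ∧ z ∈ (Sm 𝒰).ch k (d + 2) ∧ O.Fund K z ∧
    wall A z - w ∈ RN k W F (d + 1)

omit [T2Space X] [ChartedSpace (EE (d + 1 + 1)) X] in
theorem Wl.mem {w : Ch k (d + 1) X} (C : Cut 𝒰 A L R L' R' W) (h : Wl O 𝒰 A L R W F V₁ w) :
    w ∈ (On W).ch k (d + 1) ∧ bd k w ∈ (On F).ch k d := by
  obtain ⟨K, z, -, h2, h3, h4, h5⟩ := h.ex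
  obtain ⟨_, ⟨b, hb, rfl⟩, y, hy, e⟩ := Submodule.mem_sup.1 h5
  have : w = wall A z - (bd k b + y) := by rw [e]; abel
  rw [this]
  refine ⟨Submodule.sub_mem _ (C.wall_mem h3) (Submodule.add_mem _ (Sb.bd_mem hb) (ch_mono h.FW hy)), ?_⟩
  rw [map_sub, map_add, bd_bd, zero_add]
  exact Submodule.sub_mem _ (C.bd_wall h3 h4.rc h2) (Sb.bd_mem hy)

omit [T2Space X] [ChartedSpace (EE (d + 1 + 1)) X] in
theorem Wl.congr {w w' : Ch k (d + 1) X} (h : Wl O 𝒰 A L R W F V₁ w)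
    (e : w - w' ∈ RN k W F (d + 1)) : Wl O 𝒰 A L R W F V₁ w' := by
  obtain ⟨K, z, h1, h2, h3, h4, h5⟩ := h.ex
  exact ⟨h.far, h.WL, h.WR, h.FW, K, z, h1, h2, h3, h4, by simpa using Submodule.add_mem _ h5 e⟩

variable (hO : O.ND) (hX : Acy k (univ : Set X) univ) (C : Cut 𝒰 A L R L' R' W)
  (H : Dt k i j U V V₁ L₁ R₁ L R L' R' HL HR) (hij : i + 1 + j = d) (hUW : U ⊆ W) (hVF : V ⊆ F)
  {w : Ch k (d + 1) X} (hw : Wl O 𝒰 A L R W F V₁ w)
include hO hX C H hij hUW hVF hw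

/-- **window detection**, back cap -/
theorem det' {c : Ch k (j + 1) X} (hc : c ∈ (On U).ch k (j + 1)) (hb : bd k c ∈ (On V).ch k j) :
    ∃ a ∈ HL, ∃ b ∈ HR, c - cap' (j + 1) (a + b) w ∈ RN k W F (j + 1) := by
  obtain ⟨K, z, h1, h2, h3, h4, h5⟩ := hw.ex
  obtain ⟨a, ha, b, hb, e⟩ := det_wall hO hX C H hij hUW hVF hw.far h1 h2 h3 h4 hc hb
  refine ⟨a, ha, b, hb, ?_⟩
  have := D_RN cD (show i + 1 + (j + 1) = d + 1 by omega) (Submodule.add_mem _
    (Sb.Z_mono (On_le hw.WL) (H.zl ha)) (Sb.Z_mono (On_le hw.WR) (H.zr hb))) h5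
  simpa using Submodule.add_mem _ e this

/-- **window detection**, front cap -/
theorem det {c : Ch k (j + 1) X} (hc : c ∈ (On U).ch k (j + 1)) (hb : bd k c ∈ (On V).ch k j) :
    ∃ a ∈ HL, ∃ b ∈ HR, c - cap (j + 1) (a + b) w ∈ RN k W F (j + 1) := by
  obtain ⟨a, ha, b, hb, e⟩ := det' hO hX C H hij hUW hVF hw hc hb
  set u : k := (-1) ^ ((i + 1) * (j + 1)) with hu
  have uu : u * u = 1 := by rw [hu, ← mul_pow]; simp
  refine ⟨u • a, HL.smul_mem _ ha, u • b, HR.smul_mem _ hb, ?_⟩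
  have := cap_sub_cap' (show i + 1 + (j + 1) = d + 1 by omega) (Submodule.add_mem _
    (Sb.Z_mono (On_le hw.WL) (H.zl ha)) (Sb.Z_mono (On_le hw.WR) (H.zr hb))) (hw.mem C).1 (hw.mem C).2
  rw [← smul_add, show cap (j + 1) (u • (a + b)) w = u • cap (j + 1) (a + b) w from cD'.smul _ _ _]
  have h2 := Submodule.sub_mem _ e (Submodule.smul_mem _ u this)
  rwa [← hu, smul_sub, smul_smul, uu, one_smul, show c - cap' (j + 1) (a + b) w -
    (u • cap (j + 1) (a + b) w - cap' (j + 1) (a + b) w) = c - u • cap (j + 1) (a + b) w by abel] at h2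

variable {M : Type} [AddCommGroup M] [Module k M]



end Crest.Agent.N255.Wn

end
end

-- ▼ part N255/Wn/Db
section

/-!
# Row 255 (helper46): window detection with bounded supports

A cocycle of a window which vanishes far away and which kills the cap cycles of the wall is, on a smaller
window, the coboundary of a cochain with compact support.  No condition at the end is needed.
-/

set_option autoImplicit false
open Set Filter Topology

noncomputable section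

namespace Crest.Agent.N255.Wn

open Crest.Agent.N255.Tp

variable {X : Type} [TopologicalSpace X] {n i j d : ℕ} {𝒰 : Set (Set X)}
  {A A₁ A₂ L R L' R' L₁ R₁ W W₁ W₂ F T U V K K₁ K₂ : Set X}

section ring

variable {k : Type} [CommRing k] {M : Type} [AddCommGroup M] [Module k M]

variable (k 𝒰) in
/-- the honest cochain which agrees with `φ` on small simplices -/
def hon (φ : Co M n X) : Co M n X := fun σ => ev k φ (Sml.rho k 𝒰 n (sg k σ))

theorem ev_hon (φ : Co M n X) (c : Ch k n X) : ev k (hon 𝒰 k φ) c = ev k φ (Sml.rho k 𝒰 n c) :=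
  (map_eq_ev ((ev k φ).comp (Sml.rho k 𝒰 n)) c).symm

theorem cob_hon (φ : Co M n X) : cob k (hon 𝒰 k φ) = hon 𝒰 k (cob k φ) := by
  funext σ
  rw [← ev_sg (k := k) (cob k _), ← ev_bd, ev_hon, ← Sml.bd_rho, ev_bd, hon]

theorem hon_sub (φ ψ : Co M n X) : hon 𝒰 k (φ - ψ) = hon 𝒰 k φ - hon 𝒰 k ψ := by
  funext σ; simp [hon, ev_sub]

theorem hon_smul (r : k) (φ : Co M n X) : hon 𝒰 k (r • φ) = r • hon 𝒰 k φ := by
  funext σ; simp [hon, ev_smul]

theorem hon_sm (φ : Co M n X) : hon 𝒰 k φ - φ ∈ (Sm 𝒰).van k M n := fun σ h => by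
  simp [hon, Sml.rho_of_sm k 𝒰 (Sb.sg_mem h)]

theorem hon_van (ho : ∀ Y ∈ 𝒰, IsOpen Y) (hc : univ ⊆ ⋃₀ 𝒰) {φ : Co M n X}
    (h : ∀ Y ∈ 𝒰, φ ∈ (On (Y ∩ T)).van k M n) : hon 𝒰 k φ ∈ (On T).van k M n := fun _ hσ =>
  Sb.ev_eq_zero (P := (On T).inf (Sm 𝒰)) (fun τ ⟨h1, Y, hY, h2⟩ => h Y hY τ (subset_inter h2 h1))
    (Sml.rho_inf k ho ((subset_univ T).trans hc) (Sb.sg_mem hσ))

theorem hon_zero (ho : ∀ Y ∈ 𝒰, IsOpen Y) (hc : univ ⊆ ⋃₀ 𝒰) {φ : Co M n X}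
    (h : φ ∈ (Sm 𝒰).van k M n) : hon 𝒰 k φ = 0 :=
  eq_zero_of_van_univ (hon_van ho hc fun _ hY =>
    van_mono inter_subset_left (Sb.van_mono (On_le_Sm hY) h))

/-- a cocycle of `U` differs from its honest form by a coboundary which is as local as the cocycle -/
theorem sub_hon {f : Co M (n + 1) X} (hf : f ∈ (On U).Z k M (n + 1)) :
    ∃ e : Co M n X, f - hon 𝒰 k f - cob k e ∈ (On U).van k M (n + 1) ∧
      ∀ T, f ∈ (On (U ∩ T)).van k M (n + 1) → e ∈ (On T).van k M n := by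
  set g : Co M n X := fun τ => ev k f (Sml.DD k 𝒰 n (sg k τ)) with hg
  refine ⟨(On U).res g, ?_, fun T hT => Sb.res_mem fun τ hτ =>
    Sb.ev_eq_zero hT (Sml.DD_mem k 𝒰 _ (Sb.sg_mem (subset_inter hτ.1 hτ.2)))⟩
  have h1 : f - hon 𝒰 k f - cob k g ∈ (On U).van k M (n + 1) := fun σ hσ => by
    have e1 : cob k g σ = ev k f (Sml.DD k 𝒰 n (bd k (sg k σ))) := by
      rw [← ev_sg (k := k) (cob k g), ← ev_bd]
      exact (map_eq_ev ((ev k f).comp (Sml.DD k 𝒰 n)) _).symm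
    have e2 : ev k f (bd k (Sml.DD k 𝒰 (n + 1) (sg k σ))) = 0 :=
      Sb.ev_B hf (Sb.bd_mem_B (Sml.DD_mem k 𝒰 _ (Sb.sg_mem hσ)))
    simp [hon, Sml.rho_succ, e1, e2]
  have := Submodule.add_mem _ h1 (Sb.cob_mem (Sb.sub_res (k := k) (P := On U) g))
  rwa [map_sub, sub_add_sub_cancel] at this

theorem ev_ex {P : Sb X} {φ : Co M (n + 1) X} (h : φ ∈ P.Ex k M (n + 1)) {c : Ch k (n + 1) X}
    (hc : c ∈ P.ch k (n + 1)) (h0 : bd k c = 0) : ev k φ c = 0 := by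
  obtain ⟨ψ, hψ⟩ := Sb.mem_Ex.1 h
  rw [Sb.ev_congr hψ hc, ← ev_bd, h0, map_zero]

end ring

variable {k : Type} [Field k] [T2Space X]

/-- no compactly supported cohomology below the top degree -/
theorem hc_zero [ChartedSpace (EE (d + 1)) X] {O : Ori k d X} (hO : O.ND)
    (hX : Acy k (univ : Set X) univ) (hi : i < d) {φ : Co k (i + 1) X}
    (hφ : φ ∈ Cc k univ k (i + 1)) (h0 : cob k φ = 0) : ∃ ψ ∈ Cc k univ k i, cob k ψ = φ := by
  refine (pdS_holds k d X O hO _ cD univ isOpen_univ).2 i φ hφ h0 fun j hj => ?_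
  obtain ⟨c, hc, h1, h2⟩ := Ori.du_exists (O := O) fundS_holds cD hj isOpen_univ hφ h0
  obtain ⟨j, rfl⟩ : ∃ j', j = j' + 1 := ⟨j - 1, by omega⟩
  exact h2.congr (by simpa using hX (j + 1) ⟨hc, h1⟩)

variable [ChartedSpace (EE (d + 1 + 1)) X] {O : Ori k (d + 1) X}

/-- one side: the class `f ∪ δχ` dies in `L₁` -/
theorem side (hO : O.ND) (C : Cut 𝒰 A univ univ A Aᶜ W₁) (hij : i + 1 + j = d) (hL : IsOpen L₁)
    (hK : IsCompact K₁) (hKL : K₁ ⊆ L₁) (hF : W₁ \ K₁ ⊆ F) (hW : W₁ ⊆ W) (hW' : W₁ ⊆ L')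
    {H : Submodule k (Co k (i + 1) X)} (hH : H ≤ (On W).Z k k (i + 1))
    (wl : (On L₁).Z k k (i + 1) ≤ H ⊔ (On L').Ex k k (i + 1)) {z : Ch k (d + 2) X}
    (hz : z ∈ (Sm 𝒰).ch k (d + 2)) (hf : O.Fund K₁ z) {w : Ch k (d + 1) X}
    (hw : wall A z - w ∈ RN k W F (d + 1)) {f : Co k (j + 1) X} (f1 : f ∈ (On W).Z k k (j + 1))
    (f2 : f ∈ (On F).van k k (j + 1)) (h : ∀ a ∈ H, ev k f (cap (j + 1) a w) = 0) :
    ∃ ψ ∈ Cc k L₁ k (j + 1),
      cob k ψ = hon 𝒰 k (cup (LinearMap.mul k k) (j + 1 + 1) f (cob k (cut k A))) := by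
  set ω := cup (LinearMap.mul k k) (j + 1 + 1) f (cob k (cut k A)) with hω
  have o1 : ω ∈ (On A).van k k _ := cup_van_r _ _ cob_cut_l
  have o2 : ω ∈ (On Aᶜ).van k k _ := cup_van_r _ _ cob_cut_r
  have c1 : cob k ω ∈ (Sm 𝒰).van k k _ := by
    rw [hω, cupS_holds k k k k _ X (j + 1) 1 _ rfl, cob_cob]
    refine van_sm fun Y hY => Submodule.add_mem _ ?_
      (Submodule.smul_mem _ _ (cup_van_r _ _ (Submodule.zero_mem _)))
    rcases C.w Y hY with h | h | h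
    exacts [cup_van_r _ _ (van_mono h cob_cut_l), cup_van_r _ _ (van_mono h cob_cut_r),
      cup_van_l _ (van_mono (h.trans hW) f1) _]
  have c2 : cob k (hon 𝒰 k ω) = 0 := by rw [cob_hon, hon_zero C.op C.cov c1]
  have v : hon 𝒰 k ω ∈ (On K₁ᶜ).van k k _ := hon_van C.op C.cov fun Y hY =>
    (C.alt o1 o2 Y hY).elim (fun h => van_mono inter_subset_left h)
      fun h => cup_van_l _ (van_mono ((inter_subset_inter_left _ h).trans hF) f2) _
  obtain ⟨z₁, hz₁, hf₁⟩ := fundS_holds k X (d + 1) O K₁ ((· ∩ L₁) '' 𝒰) hK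
    (by rintro _ ⟨Y, hY, rfl⟩; exact (C.op Y hY).inter hL)
    (fun x hx => by
      obtain ⟨Y, hY, h⟩ := C.cov (mem_univ x)
      exact ⟨_, ⟨Y, hY, rfl⟩, h, hKL hx⟩)
  have s1 : z₁ ∈ (Sm 𝒰).ch k (d + 2) := Sb.ch_mono (Sm_le (by
    rintro _ ⟨Y, hY, rfl⟩; exact ⟨Y, hY, inter_subset_left⟩)) hz₁
  have s2 : z₁ ∈ (On L₁).ch k (d + 2) := Sb.ch_mono (Sm_le_On (by
    rintro _ ⟨Y, hY, rfl⟩; exact inter_subset_right)) hz₁
  refine (pdS_holds k (d + 1) X O hO _ cD L₁ hL).2 (j + 1) _ ⟨K₁, hK, hKL, v⟩ c2 fun j' hj => ?_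
  obtain rfl : j' = i + 1 := by omega
  have e1 : cap' (i + 1) (hon 𝒰 k ω) z₁ = cap' (i + 1) ω z₁ := by
    have := loc_zero cD (j := i + 1) (hon_sm ω) s1
    rwa [D_sub cD, sub_eq_zero] at this
  have y1 : bd k (cap' (i + 1) ω z₁) = 0 := e1 ▸ cD.mem_cyc (j := i + 1) (by omega) c2 v hf₁.rc
  have y2 : cap' (i + 1) ω z₁ ∈ (On L').ch k (i + 1) := ch_mono hW'
    (loc_sm cD (C.alt' o1 o2 inter_subset_left) s1 (mem_ch_univ _))
  refine ⟨K₁, z₁, hK, hKL, v, s2, hf₁, ?_⟩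
  rw [sub_zero]
  change cap' (i + 1) (hon 𝒰 k ω) z₁ ∈ _
  rw [e1]
  refine Det.mem_B _ _ fun b hb => ?_
  obtain ⟨a, ha, x, hx, rfl⟩ := Submodule.mem_sup.1 (wl hb)
  rw [ev_add, ev_ex hx y2 y1, add_zero, hω, cap'_cup (m := d + 1) (by omega) (by omega), ← ev_cup',
    ev_cup]
  have h1 : wall A z₁ - w ∈ RN k W F (d + 1) := by
    simpa using Submodule.add_mem _ (RN_mono hW subset_rfl (C.wall_indep hF s1 hz hf₁ hf)) hw
  have h2 := ev_RN f1 f2 (D_RN cD' (show i + 1 + (j + 1) = d + 1 by omega) (hH ha) h1)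
  rwa [map_sub, map_sub, h a ha, sub_zero] at h2

/-- the geometry of detection with bounded supports: cuts `A₁ ⊆ A₂` with thin windows `W₁`, `W₂`, small
window `U` between them, big window `W`, far part `F` -/
structure Bt (𝒰 : Set (Set X)) (A₁ A₂ W₁ W₂ L' R' L₁ R₁ U W F K : Set X) : Prop where
  op : ∀ Y ∈ 𝒰, IsOpen Y
  cov : univ ⊆ ⋃₀ 𝒰
  c₁ : ∀ Y ∈ 𝒰, Y ⊆ A₁ ∨ Y ⊆ A₁ᶜ ∨ Y ⊆ W₁
  c₂ : ∀ Y ∈ 𝒰, Y ⊆ A₂ ∨ Y ⊆ A₂ᶜ ∨ Y ⊆ W₂
  c : ∀ Y ∈ 𝒰, Y ⊆ A₁ ∨ Y ⊆ A₂ᶜ ∨ Y ⊆ W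
  AA : A₁ ⊆ A₂
  w₁ : W₁ ⊆ W ∩ L'
  w₂ : W₂ ⊆ W ∩ R'
  oL : IsOpen L₁
  oR : IsOpen R₁
  hK : IsCompact K
  KF : W \ K ⊆ F
  FW : F ⊆ W
  k₁ : ∃ K₁, IsCompact K₁ ∧ K₁ ⊆ K ∩ L₁ ∧ W₁ \ K₁ ⊆ F
  k₂ : ∃ K₂, IsCompact K₂ ∧ K₂ ⊆ K ∩ R₁ ∧ W₂ \ K₂ ⊆ F
  u : U ⊆ A₂ ∩ A₁ᶜ ∩ (L₁ᶜ ∩ R₁ᶜ) ∩ W

omit [T2Space X] in
theorem Bt.cut (B : Bt 𝒰 A₁ A₂ W₁ W₂ L' R' L₁ R₁ U W F K) (h : A₁ ⊆ A) (h' : A ⊆ A₂) :
    Cut 𝒰 A univ univ A₁ A₂ᶜ W :=
  ⟨B.op, B.cov, fun _ _ => Or.inr (subset_univ _), fun _ _ => Or.inr (subset_univ _), h,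
    compl_subset_compl.2 h', B.c⟩

variable {HL HR : Submodule k (Co k (i + 1) X)} (hO : O.ND) (hX : Acy k (univ : Set X) univ)
  (B : Bt 𝒰 A₁ A₂ W₁ W₂ L' R' L₁ R₁ U W F K) (hij : i + 1 + j = d)
  (zl : HL ≤ (On W).Z k k (i + 1)) (zr : HR ≤ (On W).Z k k (i + 1))
  (wl : (On L₁).Z k k (i + 1) ≤ HL ⊔ (On L').Ex k k (i + 1))
  (wr : (On R₁).Z k k (i + 1) ≤ HR ⊔ (On R').Ex k k (i + 1))
  (hA : A₁ ⊆ A) (hA' : A ⊆ A₂) {z : Ch k (d + 2) X} (hz : z ∈ (Sm 𝒰).ch k (d + 2)) (hf : O.Fund K z)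
  {w : Ch k (d + 1) X} (hw : wall A z - w ∈ RN k W F (d + 1))
include hO hX B hij zl zr wl wr hA hA' hz hf hw



end Crest.Agent.N255.Wn

end
end

-- ▼ part N255/Wn/Tame
section

/-!
# Row 255 (helper46): q-tameness of windows and sides from tameness of the far parts
-/

set_option autoImplicit false
open Set Filter Topology

noncomputable section

namespace Crest.Agent.N255.Wn

open Crest.Agent.N255.Tp Crest.Agent.N255.Wi

variable {X : Type} [TopologicalSpace X] {k : Type} [Field k] {n : ℕ} {U V W : Set X}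

theorem ev_ex' {M : Type} [AddCommGroup M] [Module k M] {P : Sb X} : ∀ {n} {φ : Co M n X},
    φ ∈ P.Ex k M n → ∀ {c : Ch k n X}, c ∈ P.ch k n → c ∈ cyc k X n → ev k φ c = 0
  | 0, _, h, _, hc, _ => Sb.ev_eq_zero h hc
  | _ + 1, _, h, _, hc, h0 => ev_ex h hc h0

/-- converse of `fr_dual` -/
theorem fr_hom_of_coh {P Q : Sb X} (h : FR (Q.Z k k n) (P.Ex k k n)) :
    FR (P.ch k n ⊓ cyc k X n) (Q.B k n) :=
  h.pairing (evL k n X).flip (fun _ hu _ hb => ev_ex' hb hu.1 hu.2)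
    fun u _ h => Det.mem_B Q u h


/-- cycles are homologous to small cycles -/
theorem cyc_le_sm {𝒰 : Set (Set X)} (ho : ∀ Y ∈ 𝒰, IsOpen Y) (hc : U ⊆ ⋃₀ 𝒰) :
    ∀ {n}, (On U).ch k n ⊓ cyc k X n ≤ (((On U).inf (Sm 𝒰)).ch k n ⊓ cyc k X n) ⊔ (On U).B k n
  | 0 => fun c h => Submodule.mem_sup_left ⟨Sml.rho_inf k ho hc h.1, trivial⟩
  | n + 1 => fun c h => by
    have h0 : bd k c = 0 := h.2
    refine Submodule.mem_sup.2 ⟨Sml.rho k 𝒰 _ c, ⟨Sml.rho_inf k ho hc h.1, ?_⟩, _,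
      Sb.bd_mem_B (Sml.DD_mem k 𝒰 U h.1), by rw [Sml.rho_succ, h0, map_zero]; abel⟩
    change bd k _ = 0
    rw [Sml.bd_rho, h0, map_zero]

theorem fr_of_sm {𝒰 : Set (Set X)} (ho : ∀ Y ∈ 𝒰, IsOpen Y) (hc : U ⊆ ⋃₀ 𝒰) (hUV : U ⊆ V)
    (h : FR (((On U).inf (Sm 𝒰)).ch k n ⊓ cyc k X n) ((On V).B k n)) :
    FR ((On U).ch k n ⊓ cyc k X n) ((On V).B k n) :=
  (h.sup (FR.of_le (B_mono hUV))).mono (cyc_le_sm ho hc) le_rfl

/-- a cocycle of `U` which is exact on small simplices is exact -/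
theorem ex_of_sm {M : Type} [AddCommGroup M] [Module k M] {𝒰 : Set (Set X)}
    (ho : ∀ Y ∈ 𝒰, IsOpen Y) (hc : U ⊆ ⋃₀ 𝒰) {φ : Co M n X} (h : φ ∈ (On U).Z k M n)
    (h' : φ ∈ ((On U).inf (Sm 𝒰)).Ex k M n) : φ ∈ (On U).Ex k M n :=
  Det.ex_of_cyc _ φ fun c h1 h2 => by
    obtain ⟨a, ha, b, hb, rfl⟩ := Submodule.mem_sup.1 (cyc_le_sm ho hc ⟨h1, h2⟩)
    rw [map_add, ev_ex' h' ha.1 ha.2, Sb.ev_B h hb, add_zero]

/-- in an acyclic space, the cycles of a side come from the overlap -/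
theorem side_le (hX : Acy k (univ : Set X) univ) (hU : IsOpen U) (hV : IsOpen V) (h : U ∪ V = univ) :
    (On U).ch k n ⊓ rcyc k X n ≤ ((On (U ∩ V)).ch k n ⊓ rcyc k X n) ⊔ (On U).B k n := fun c hc => by
  obtain ⟨a, ha, b, hb, e⟩ := split_B smChS_holds hU hV (h ▸ hX n ⟨mem_ch_univ c, hc.2⟩)
    (Submodule.mem_sup_left hc.1)
  refine Submodule.mem_sup.2 ⟨bd k b, ⟨?_, bd_mem_rcyc n b⟩, _, Sb.bd_mem_B ha, by rw [e, add_comm]⟩
  rw [ch_inter]
  exact ⟨by simpa [e] using Submodule.sub_mem _ hc.1 (Sb.bd_mem ha), Sb.bd_mem hb⟩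

theorem fr_side (hX : Acy k (univ : Set X) univ) (hU : IsOpen U) (hV : IsOpen V) (h : U ∪ V = univ)
    (hW : U ⊆ W) (hf : FR ((On (U ∩ V)).ch k n ⊓ cyc k X n) ((On W).B k n)) :
    FR ((On U).ch k n ⊓ cyc k X n) ((On W).B k n) :=
  fr_cyc (B := fun n => (On W).B k n) n ((hf.sup (FR.of_le (B_mono hW))).mono
    ((side_le hX hU hV h).trans (sup_le_sup_right (inf_le_inf_left _ (rcyc_le n)) _)) le_rfl)

/-- Mayer–Vietoris for finite rank -/
theorem fr_union {U' V' Y : Set X} (hU : IsOpen U) (hV : IsOpen V) (h1 : U ⊆ U') (h2 : V ⊆ V')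
    (h3 : U ∪ V ⊆ W) (h4 : Y ⊆ U' ∩ V') : ∀ {n}, FR ((On U').ch k n ⊓ cyc k X n) ((On W).B k n) →
    FR ((On V').ch k n ⊓ cyc k X n) ((On W).B k n) →
    (∀ m, m + 1 = n → FR ((On (U ∩ V)).ch k m ⊓ cyc k X m) ((On Y).B k m)) →
    FR ((On (U ∪ V)).ch k n ⊓ cyc k X n) ((On W).B k n)
  | 0, f1, f2, _ => (f1.sup f2).mono (by
      rw [ch_zero_union]
      exact inf_le_left.trans (sup_le_sup (le_inf (ch_mono h1) le_top) (le_inf (ch_mono h2) le_top)))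
      le_rfl
  | n + 1, f1, f2, f3 => by
    refine mv_step (bd k) ((On U).ch k _) ((On V).ch k _) _ _ ((On Y).ch k _) _ _ _ (ch_mono h1)
      (ch_mono h2) (ch_mono (h4.trans inter_subset_left)) (ch_mono (h4.trans inter_subset_right)) ?_
      (f3 n rfl) f1 f2 fun z hz => ?_
    · refine le_inf ?_ (inf_le_left.trans Sb.B_le_cyc)
      rw [ch_inter]
      exact inf_le_inf Sb.B_le_ch Sb.B_le_ch
    · have h0 : bd k z = 0 := hz.2
      obtain ⟨a, ha, b, hb, e⟩ := split_ch smChS_holds hU hV hz.1 (h0 ▸ Submodule.zero_mem _)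
      refine ⟨a, ha, b, hb, ?_, B_mono h3 e⟩
      have : bd k (z - (a + b)) = 0 := Sb.B_le_cyc e
      rwa [map_sub, h0, zero_sub, neg_eq_zero] at this

/-- **tameness from the far part**: `P'' ⊆ Q'' ⊆ P' ⊆ Q' ⊆ P`, bounded parts of `Q'` are compact -/
theorem tame_of_far [T2Space X] (d : ℕ) [ChartedSpace (EE d) X] (r : C(X, ℝ)) {P P' P'' Q' Q'' : Set X}
    (o : IsOpen P) (o' : IsOpen P') (o'' : IsOpen P'') (c'' : IsClosed Q'') (h1 : P'' ⊆ Q'')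
    (h2 : Q'' ⊆ P') (h3 : P' ⊆ Q') (h4 : Q' ⊆ P) (hc : ∀ R, IsCompact (Q' ∩ {x | r x ≤ R})) {R : ℝ}
    (hf : FR ((On (P' ∩ {x | R < r x})).ch k n ⊓ cyc k X n) ((On P).B k n)) :
    FR ((On P'').ch k n ⊓ cyc k X n) ((On P).B k n) := by
  have og : ∀ a, IsOpen {x | a < r x} := fun a => isOpen_lt continuous_const r.continuous
  have ol : ∀ a, IsOpen {x | r x < a} := fun a => isOpen_lt r.continuous continuous_const
  have e : P'' = P'' ∩ {x | R + 1 < r x} ∪ P'' ∩ {x | r x < R + 2} := by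
    rw [← inter_union_distrib_left]
    refine (inter_eq_left.2 fun x _ => ?_).symm
    by_cases h : R + 1 < r x
    exacts [Or.inl h, Or.inr (show r x < R + 2 by linarith [not_lt.1 h])]
  rw [e]
  refine fr_union (U' := P' ∩ {x | R < r x}) (V' := Q' ∩ {x | r x ≤ R + 3})
    (Y := P' ∩ ({x | R < r x} ∩ {x | r x < R + 3})) (o''.inter (og _)) (o''.inter (ol _))
    (fun x h => ⟨h2 (h1 h.1), show R < r x by linarith [show R + 1 < r x from h.2]⟩)
    (fun x h => ⟨h3 (h2 (h1 h.1)), show r x ≤ R + 3 by linarith [show r x < R + 2 from h.2]⟩)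
    (e ▸ h1.trans (h2.trans (h3.trans h4))) (fun x h => ⟨⟨h.1, h.2.1⟩, h3 h.1, (show r x < R + 3 from h.2.2).le⟩) hf
    (wilder_fr smChS_holds cellS_holds d n (hc _) o (inter_subset_left.trans h4)) fun m _ => ?_
  have hK : IsCompact (Q'' ∩ ({x | R + 1 ≤ r x} ∩ {x | r x ≤ R + 2})) :=
    (hc (R + 2)).of_isClosed_subset (c''.inter ((isClosed_le continuous_const r.continuous).inter
      (isClosed_le r.continuous continuous_const))) fun x h => ⟨h3 (h2 h.1), h.2.2⟩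
  exact (wilder_fr smChS_holds cellS_holds d m hK (o'.inter ((og _).inter (ol _))) fun x h =>
    ⟨h2 h.1, show R < r x by linarith [show R + 1 ≤ r x from h.2.1],
      show r x < R + 3 by linarith [show r x ≤ R + 2 from h.2.2]⟩).mono
    (inf_le_inf_right _ (ch_mono fun x h => ⟨h1 h.1.1, (show R + 1 < r x from h.1.2).le,
      (show r x < R + 2 from h.2.2).le⟩)) le_rfl

/-- Mayer–Vietoris in an acyclic space: cocycles of the overlap are sums of cocycles of the sides -/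
theorem mv_coh {M : Type} [AddCommGroup M] [Module k M] (hX : Acy k (univ : Set X) univ)
    (hU : IsOpen U) (hV : IsOpen V) (h : U ∪ V = univ) {φ : Co M (n + 1) X}
    (hφ : φ ∈ (On (U ∩ V)).Z k M (n + 1)) : ∃ a ∈ (On U).Z k M (n + 1), ∃ b ∈ (On V).Z k M (n + 1),
      φ - (a + b) ∈ (On (U ∩ V)).van k M (n + 1) := by
  have ho := open_pair hU hV
  have hc : univ ⊆ ⋃₀ {U, V} := by simp [h]
  set ω := (On U).res (cob k φ) with hω
  have o1 : ω - cob k φ ∈ (On U).van k M _ := by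
    simpa using Submodule.neg_mem _ (Sb.sub_res (k := k) (P := On U) (cob k φ))
  have o2 : ω ∈ (On V).van k M _ := Sb.res_mem (by rw [← On_inter]; exact hφ)
  have c1 : cob k ω ∈ (Sm {U, V}).van k M _ := by
    rw [Sm_pair, Sb.van_sup]
    exact ⟨by simpa using Sb.cob_mem o1, Sb.cob_mem o2⟩
  obtain ⟨ψ, hψ⟩ := Sb.mem_Ex.1 (Det.ex_of_cyc (On univ) (hon {U, V} k ω) fun c h1 h2 =>
    Sb.ev_B (Sb.mem_Z.2 (by rw [cob_hon, hon_zero ho hc c1]; exact Submodule.zero_mem _))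
      (hX (n + 1 + 1) ⟨h1, h2⟩))
  have e : cob k ψ - ω ∈ (Sm {U, V}).van k M _ := by
    rw [← sub_eq_zero.1 (eq_zero_of_van_univ hψ)]; exact hon_sm ω
  rw [Sm_pair, Sb.van_sup] at e
  refine ⟨φ - ψ, Sb.mem_Z.2 ?_, ψ, Sb.mem_Z.2 ?_, by simp⟩
  · simpa using Submodule.neg_mem _ (Submodule.add_mem _ e.1 o1)
  · simpa using Submodule.add_mem _ e.2 o2

end Crest.Agent.N255.Wn

end
end

-- ▼ part N255/Wn/Re

/-!
# Row 255 (helper46): windows of a level function `s`, far parts of a radius `r`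
-/

set_option autoImplicit false
open Set Filter Topology

noncomputable section

namespace Crest.Agent.N255.Wn

open Crest.Agent.N255.Tp Crest.Agent.N255.Wi

variable {X : Type} [TopologicalSpace X] {n i j d : ℕ}

/-- below `t` -/
def lo (s : C(X, ℝ)) (t : ℝ) : Set X := {x | s x < t}

/-- above `t` -/
def hi (s : C(X, ℝ)) (t : ℝ) : Set X := {x | t < s x}

/-- open window -/
def win (s : C(X, ℝ)) (a b : ℝ) : Set X := {x | a < s x ∧ s x < b}

/-- far part of a window -/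
def fw (s r : C(X, ℝ)) (a b R : ℝ) : Set X := {x | R < r x ∧ a < s x ∧ s x < b}

/-- bounded part of the closed window -/
def box (s r : C(X, ℝ)) (a b R : ℝ) : Set X := {x | r x ≤ R ∧ a ≤ s x ∧ s x ≤ b}

/-- the refinement of `𝒞` by sets on which `s` varies by less than `ε` and `r` by less than `1` -/
def cv (𝒞 : Set (Set X)) (s r : C(X, ℝ)) (ε : ℝ) : Set (Set X) :=
  {U | IsOpen U ∧ (∃ C ∈ 𝒞, U ⊆ C) ∧ ∀ x ∈ U, ∀ y ∈ U, s y < s x + ε ∧ r y < r x + 1}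

variable {𝒞 : Set (Set X)} {s r : C(X, ℝ)} {a a' a₁ a'' b b' b₁ b'' m m' t t' ε ε' R R' R₁ R₂ : ℝ}

theorem isOpen_lo : IsOpen (lo s t) := isOpen_lt s.continuous continuous_const

theorem isOpen_hi : IsOpen (hi s t) := isOpen_lt continuous_const s.continuous

theorem isOpen_win : IsOpen (win s a b) := isOpen_hi.inter isOpen_lo


theorem isClosed_box : IsClosed (box s r a b R) :=
  (isClosed_le r.continuous continuous_const).inter
    ((isClosed_le continuous_const s.continuous).inter (isClosed_le s.continuous continuous_const))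

theorem not_lo {x : X} (h : x ∈ (lo s t)ᶜ) : t ≤ s x := not_lt.1 h

theorem lo_mono (h : t ≤ t') : lo s t ⊆ lo s t' := fun _ hx => lt_of_lt_of_le hx h

theorem hi_mono (h : t' ≤ t) : hi s t ⊆ hi s t' := fun _ hx => lt_of_le_of_lt h hx

theorem win_mono (h : a ≤ a') (h' : b' ≤ b) : win s a' b' ⊆ win s a b :=
  fun _ hx => ⟨h.trans_lt hx.1, hx.2.trans_le h'⟩

theorem fw_mono (h : a ≤ a') (h' : b' ≤ b) (hR : R ≤ R') : fw s r a' b' R' ⊆ fw s r a b R :=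
  fun _ hx => ⟨hR.trans_lt hx.1, win_mono h h' hx.2⟩

theorem box_mono (h : a ≤ a') (h' : b' ≤ b) (hR : R' ≤ R) : box s r a' b' R' ⊆ box s r a b R :=
  fun _ hx => ⟨hx.1.trans hR, h.trans hx.2.1, hx.2.2.trans h'⟩

theorem fw_le : fw s r a b R ⊆ win s a b := fun _ h => h.2

theorem fw_eq : fw s r a b R = win s a b ∩ hi r R := inter_comm (hi r R) _

theorem win_eq : win s a b = lo s b ∩ hi s a := inter_comm (hi s a) _

theorem win_lo : win s a b ⊆ lo s b := fun _ h => h.2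

theorem win_hi : win s a b ⊆ hi s a := fun _ h => h.1

theorem lo_union_hi (h : a < b) : lo s b ∪ hi s a = univ :=
  eq_univ_of_forall fun x => (lt_or_ge (s x) b).imp id fun h' => h.trans_le h'

theorem win_diff_box : win s a b \ box s r a b R ⊆ fw s r a b R :=
  fun _ h => ⟨not_le.1 fun h' => h.2 ⟨h', h.1.1.le, h.1.2.le⟩, h.1⟩

theorem cv_op : ∀ U ∈ cv 𝒞 s r ε, IsOpen U := fun _ h => h.1

theorem cv_cov (ho : ∀ C ∈ 𝒞, IsOpen C) (hc : univ ⊆ ⋃₀ 𝒞) (hε : 0 < ε) : univ ⊆ ⋃₀ cv 𝒞 s r ε := by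
  intro x _
  obtain ⟨C, hC, hx⟩ := hc (mem_univ x)
  refine ⟨C ∩ (win s (s x - ε / 2) (s x + ε / 2) ∩ win r (r x - 1 / 2) (r x + 1 / 2)),
    ⟨(ho C hC).inter (isOpen_win.inter isOpen_win), ⟨C, hC, inter_subset_left⟩, ?_⟩,
    hx, ⟨by linarith, by linarith⟩, by linarith, by linarith⟩
  rintro y ⟨-, ⟨h1, -⟩, h2, -⟩ y' ⟨-, ⟨-, h3⟩, -, h4⟩
  constructor <;> linarith

theorem cv_mono (h : ε ≤ ε') : (Sm (cv 𝒞 s r ε)).Le (Sm (cv 𝒞 s r ε')) :=
  Sm_le fun U hU => ⟨U, ⟨hU.1, hU.2.1, fun x hx y hy =>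
    ⟨by linarith [(hU.2.2 x hx y hy).1], (hU.2.2 x hx y hy).2⟩⟩, subset_rfl⟩

theorem cv_le : (Sm (cv 𝒞 s r ε)).Le (Sm 𝒞) := Sm_le fun _ hU => hU.2.1

theorem cv_three {Y : Set X} (hY : Y ∈ cv 𝒞 s r ε) (h : a + ε ≤ a') (h' : b' + ε ≤ b) :
    Y ⊆ lo s a' ∨ Y ⊆ (lo s b')ᶜ ∨ Y ⊆ win s a b := by
  by_contra hn
  simp only [not_or, not_subset] at hn
  obtain ⟨⟨x, hx, h1⟩, ⟨y, hy, h2⟩, z, hz, h3⟩ := hn
  have h1 : a' ≤ s x := not_lt.1 h1
  have h2 : s y < b' := not_not.1 h2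
  exact h3 ⟨by linarith [(hY.2.2 z hz x hx).1], by linarith [(hY.2.2 y hy z hz).1]⟩


theorem hi_le_compl (h : m ≤ t) : hi s t ⊆ (lo s m)ᶜ := fun _ hx h' => by
  have h1 : t < _ := hx
  have h2 : _ < m := h'
  linarith

variable (ho : ∀ C ∈ 𝒞, IsOpen C) (hc : univ ⊆ ⋃₀ 𝒞)

include ho hc in
theorem cut_win (hε : 0 < ε) (h1 : a + ε ≤ a') (h2 : a' ≤ m) (h3 : m ≤ b') (h4 : b' + ε ≤ b) :
    Cut (cv 𝒞 s r ε) (lo s m) (lo s b) (hi s a) (lo s a') (lo s b')ᶜ (win s a b) where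
  op := cv_op
  cov := cv_cov ho hc hε
  l _ hY := (cv_three hY (a := m - ε) (a' := m) (b' := m) (b := b) (by linarith) (by linarith)).elim
    (fun h => Or.inr (h.trans (lo_mono (by linarith)))) fun h => h.imp id fun h => h.trans win_lo
  r _ hY := (cv_three hY (a := a) (a' := m) (b' := m) (b := m + ε) (by linarith) le_rfl).imp id
    fun h => h.elim (fun h x hx => show a < s x by linarith [not_lo (h hx)]) fun h => h.trans win_hi
  lA := lo_mono h2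
  rA := compl_subset_compl.2 (lo_mono h3)
  w _ hY := cv_three hY h1 h4

theorem Cut.mono {𝒰 : Set (Set X)} {A L R L' R' W L'' R'' : Set X} (C : Cut 𝒰 A L R L' R' W)
    (h : ∀ Y ∈ 𝒰, Y ⊆ L'' ∨ Y ⊆ R'' ∨ Y ⊆ W) (hl : L'' ⊆ A) (hr : R'' ⊆ Aᶜ) : Cut 𝒰 A L R L'' R'' W :=
  ⟨C.op, C.cov, C.l, C.r, hl, hr, h⟩

variable {k : Type} [Field k] {O : Ori k (d + 1) X} {w w' : Ch k (d + 1) X}

/-- `w` represents the wall class of the window `(a, b)` relative to the far part `R < r` -/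
def Wr (O : Ori k (d + 1) X) (𝒞 : Set (Set X)) (s r : C(X, ℝ)) (a b R : ℝ) (w : Ch k (d + 1) X) : Prop :=
  ∃ ε m K z, 0 < ε ∧ a + ε ≤ m ∧ m + ε ≤ b ∧ IsCompact K ∧ win s a b \ K ⊆ fw s r a b R ∧
    z ∈ (Sm (cv 𝒞 s r ε)).ch k (d + 2) ∧ O.Fund K z ∧
    wall (lo s m) z - w ∈ RN k (win s a b) (fw s r a b R) (d + 1)

theorem Wr.congr (h : Wr O 𝒞 s r a b R w) (e : w - w' ∈ RN k (win s a b) (fw s r a b R) (d + 1)) :
    Wr O 𝒞 s r a b R w' := by
  obtain ⟨ε, m, K, z, h1, h2, h3, h4, h5, h6, h7, h8⟩ := h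
  exact ⟨ε, m, K, z, h1, h2, h3, h4, h5, h6, h7, by simpa using Submodule.add_mem _ h8 e⟩

theorem wr_wall (hε : 0 < ε) (h1 : a + ε ≤ m) (h2 : m + ε ≤ b) {K : Set X} (hK : IsCompact K)
    (hF : win s a b \ K ⊆ fw s r a b R) {z : Ch k (d + 2) X} (hz : z ∈ (Sm (cv 𝒞 s r ε)).ch k (d + 2))
    (hf : O.Fund K z) : Wr O 𝒞 s r a b R (wall (lo s m) z) :=
  ⟨ε, m, K, z, hε, h1, h2, hK, hF, hz, hf, by simp⟩

include ho hc

theorem Wr.mem (h : Wr O 𝒞 s r a b R w) :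
    w ∈ (On (win s a b)).ch k (d + 1) ∧ bd k w ∈ (On (fw s r a b R)).ch k d := by
  obtain ⟨ε, m, K, z, h1, h2, h3, h4, h5, h6, h7, h8⟩ := h
  exact Wl.mem (V₁ := ∅) (cut_win ho hc h1 h2 le_rfl le_rfl h3)
    ⟨fun _ _ => Or.inl (by simp), win_lo, win_hi, fw_le, K, z, h4, h5, h6, h7, h8⟩

variable [T2Space X]

/-- a wall is homologous to the wall of every cut in every good chain -/
theorem Wr.spec (h : Wr O 𝒞 s r a b R w) (hε : 0 < ε) (h1 : a + ε ≤ m) (h2 : m + ε ≤ b) {K : Set X}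
    (hK : IsCompact K) (hF : win s a b \ K ⊆ fw s r a b R) {z : Ch k (d + 2) X}
    (hz : z ∈ (Sm (cv 𝒞 s r ε)).ch k (d + 2)) (hf : O.Fund K z) :
    wall (lo s m) z - w ∈ RN k (win s a b) (fw s r a b R) (d + 1) := by
  obtain ⟨ε', m', K', z', g1, g2, g3, g4, g5, g6, g7, g8⟩ := h
  have hm : 0 < min ε ε' := lt_min hε g1
  have m1 := min_le_left ε ε'
  have m2 := min_le_right ε ε'
  obtain ⟨y, hy, fy⟩ := fundS_holds k X (d + 1) O (K ∪ K') (cv 𝒞 s r (min ε ε')) (hK.union g4) cv_op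
    ((subset_univ _).trans (cv_cov ho hc hm))
  have e1 := (cut_win ho hc hε h1 le_rfl le_rfl h2).wall_indep hF hz (Sb.ch_mono (cv_mono m1) hy) hf
    (fy.mono hK (hK.union g4) subset_union_left)
  have e2 := (cut_win ho hc g1 g2 le_rfl le_rfl g3).wall_indep g5 (Sb.ch_mono (cv_mono m2) hy) g6
    (fy.mono g4 (hK.union g4) subset_union_right) g7
  have e3 := (cut_win ho hc (a := a) (b := b) (m := m) (a' := a + min ε ε') (b' := b - min ε ε') hm le_rfl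
    (by linarith) (by linarith) (by linarith)).wall_sub (A' := lo s m') (lo_mono (by linarith))
    (compl_subset_compl.2 (lo_mono (by linarith))) hy
    (fy.mono hK (hK.union g4) subset_union_left).rc hF
  simpa using Submodule.add_mem _ (Submodule.add_mem _ (Submodule.add_mem _ e1 e3) e2) g8

theorem Wr.at (h : Wr O 𝒞 s r a b R w) (hε : 0 < ε) (h1 : a + ε ≤ m) (h2 : m + ε ≤ b) {Q : Set X}
    (hQ : IsCompact Q) : ∃ K z, IsCompact K ∧ Q ⊆ K ∧ win s a b \ K ⊆ fw s r a b R ∧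
      z ∈ (Sm (cv 𝒞 s r ε)).ch k (d + 2) ∧ O.Fund K z ∧
      wall (lo s m) z - w ∈ RN k (win s a b) (fw s r a b R) (d + 1) := by
  obtain ⟨-, -, K, -, -, -, -, g4, g5, -⟩ := id h
  obtain ⟨y, hy, fy⟩ := fundS_holds k X (d + 1) O (K ∪ Q) (cv 𝒞 s r ε) (g4.union hQ) cv_op
    ((subset_univ _).trans (cv_cov ho hc hε))
  have := (sdiff_subset_sdiff_right (s := win s a b) (subset_union_left (t := Q))).trans g5
  exact ⟨K ∪ Q, y, g4.union hQ, subset_union_right, this, hy, fy,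
    h.spec ho hc hε h1 h2 (g4.union hQ) this hy fy⟩

/-- two walls of a window are homologous relative to the far part -/
theorem Wr.sub (h : Wr O 𝒞 s r a b R w) (h' : Wr O 𝒞 s r a b R w') :
    w - w' ∈ RN k (win s a b) (fw s r a b R) (d + 1) := by
  obtain ⟨ε, m, K, z, g1, g2, g3, g4, g5, g6, g7, g8⟩ := h
  simpa using Submodule.sub_mem _ (h'.spec ho hc g1 g2 g3 g4 g5 g6 g7) g8

theorem Wr.mono (h : Wr O 𝒞 s r a' b' R' w) (ha : a ≤ a') (hb : b' ≤ b) (hR : R ≤ R')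
    (hK : IsCompact (box s r a b R)) : Wr O 𝒞 s r a b R w := by
  obtain ⟨ε, m, -, -, g1, g2, g3, -⟩ := id h
  obtain ⟨K, z, k1, k2, -, k4, k5, k6⟩ := h.at ho hc g1 g2 g3 hK
  exact ⟨ε, m, K, z, g1, by linarith, by linarith, k1,
    (sdiff_subset_sdiff_right k2).trans win_diff_box, k4, k5,
    RN_mono (win_mono ha hb) (fw_mono ha hb hR) k6⟩

/-- existence of small walls -/
theorem exists_wr (O : Ori k (d + 1) X) (hab : a < b) (hK : IsCompact (box s r a b R)) :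
    ∃ w ∈ (Sm 𝒞).ch k (d + 1), Wr O 𝒞 s r a b R w := by
  have hε : 0 < (b - a) / 2 := by linarith
  obtain ⟨z, hz, hf⟩ := fundS_holds k X (d + 1) O _ (cv 𝒞 s r ((b - a) / 2)) hK cv_op
    ((subset_univ _).trans (cv_cov ho hc hε))
  refine ⟨_, ?_, wr_wall hε (m := (a + b) / 2) (by linarith) (by linarith) hK win_diff_box hz hf⟩
  refine Sb.map_mem (cap' (d + 1) _) _ (fun σ hσ => ?_) (Sb.ch_mono cv_le hz)
  obtain ⟨Y, hY, hσ⟩ := hσ
  exact Sb.ch_mono (On_le_Sm hY) (cD.mem _ _ _ (Sb.sg_mem hσ))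

variable [ChartedSpace (EE (d + 1 + 1)) X] {HL HR : Submodule k (Co k (i + 1) X)}


variable (hO : O.ND) (hX : Acy k (univ : Set X) univ) (hij : i + 1 + j = d)
include hO hX hij



omit ho hc hO hX hij [ChartedSpace (EE (d + 1 + 1)) X] in
/-- windows are tame if their far parts are -/
theorem tame_win (d : ℕ) [ChartedSpace (EE d) X] (h1 : a < a') (h2 : a' < a'') (h3 : b'' < b')
    (h4 : b' < b) (hK : ∀ R, IsCompact (box s r a' b' R))
    (hf : FR ((On (fw s r a' b' R)).ch k n ⊓ cyc k X n) ((On (win s a b)).B k n)) :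
    FR ((On (win s a'' b'')).ch k n ⊓ cyc k X n) ((On (win s a b)).B k n) :=
  tame_of_far d r (Q' := {x | a' ≤ s x ∧ s x ≤ b'}) (Q'' := {x | a'' ≤ s x ∧ s x ≤ b''}) isOpen_win
    (isOpen_win (a := a') (b := b')) isOpen_win
    ((isClosed_le continuous_const s.continuous).inter (isClosed_le s.continuous continuous_const))
    (fun _ h => ⟨h.1.le, h.2.le⟩) (fun _ h => ⟨h2.trans_le h.1, h.2.trans_lt h3⟩)
    (fun _ h => ⟨h.1.le, h.2.le⟩) (fun _ h => ⟨h1.trans_le h.1, h.2.trans_lt h4⟩)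
    (fun R => inter_comm _ _ ▸ hK R) (by rwa [fw_eq] at hf)

omit ho hc hO hij [ChartedSpace (EE (d + 1 + 1)) X] [T2Space X] in
/-- sides are tame if windows are -/
theorem tame_sides (h : a' < b') (h1 : a ≤ a') (h2 : b' ≤ b)
    (hf : FR ((On (win s a' b')).ch k n ⊓ cyc k X n) ((On (win s a b)).B k n)) :
    FR ((On (lo s b')).ch k n ⊓ cyc k X n) ((On (lo s b)).B k n) ∧
      FR ((On (hi s a')).ch k n ⊓ cyc k X n) ((On (hi s a)).B k n) :=
  ⟨fr_side hX isOpen_lo isOpen_hi (lo_union_hi h) (lo_mono h2)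
      (by rw [← win_eq]; exact hf.mono le_rfl (B_mono win_lo)),
    fr_side hX isOpen_hi isOpen_lo (union_comm _ _ ▸ lo_union_hi h) (hi_mono h1)
      (hf.mono le_rfl (B_mono win_hi))⟩

end Crest.Agent.N255.Wn

end
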