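import Crest.Agent.N255.Wn.B2
import Crest.Agent.N255.Wv.Cmp
import Crest.Agent.N255.Wv.Var
import Crest.Agent.N255.Or.Two
import Crest.Agent.N255.Le.Phi
import Crest.Agent.N255.Ma.Wd
import Crest.Agent.N255.Wz.Zo

-- ▼ part N255/Wn/Sp
section

/-!
# Row 255 (helper46): SPAN′ (absolute classes on a side are spanned by the variables) and detection by
the variables only
-/

set_option autoImplicit false
open Set

noncomputable section

namespace Crest.Agent.N255.Wn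

open Tp Wv En Nv Pt Lv

section abs

variable {X : Type} [TopologicalSpace X] {k : Type} [Field k] {i K m : ℕ} {A B : ℕ → Set X}

/-- the uncut variables of scale at most `m` -/
def Vs (V : Var k i A B) (K m : ℕ) : Set (Co k (i + 1) X) :=
  {x | ∃ q : V.Ix K, Var.sc q ≤ m ∧ Var.cl q = x}

theorem zp_far (V : Var k i A B) (hB : Antitone B) (hm : m ≤ K) :
    ZP k (B (m + 1)) k (i + 1) ≤ Submodule.span k (Vs V K m) ⊔ BP k (B (m + 2)) k (i + 1) := fun φ hφ => by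
  obtain ⟨x, h1, h2⟩ := Var.span (V := V) hB hm hφ
  refine Submodule.mem_sup.2 ⟨∑ q, x q • Var.cl q, Submodule.sum_mem _ fun q _ => ?_, _, h2, by abel⟩
  by_cases h : m < Var.sc q
  · rw [h1 q h, zero_smul]; exact Submodule.zero_mem _
  · exact Submodule.smul_mem _ _ (Submodule.subset_span ⟨q, not_lt.1 h, rfl⟩)

variable {s : C(X, ℝ)} {l r : ℕ → ℝ} {t : ℝ}

theorem zp_lo (W : Win k i s l r) (V : Var k i A fun m => lo s (r m)) (hm : m ≤ K) (h1 : l (m + 1) ≤ t)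
    (h2 : t ≤ r (m + 1)) :
    ZP k (lo s t) k (i + 1) ≤ Submodule.span k (Vs V K m) ⊔ BP k (lo s (l m)) k (i + 1) :=
  (W.cl m t ⟨h1, h2⟩ _ ⟨(W.lt _ _).le, le_rfl⟩).trans (sup_le ((zp_far V W.anti_r hm).trans
    (sup_le_sup_left (BP_mono (lo_mono (W.lt _ _).le)) _)) le_sup_right)

theorem anti_l (W : Win k i s l r) : Antitone fun m => hi s (l m) :=
  fun _ _ h => hi_mono (W.ml.monotone h)

theorem zp_hi (W : Win k i s l r) (V : Var k i A fun m => hi s (l m)) (hm : m ≤ K) (h1 : l (m + 1) ≤ t)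
    (h2 : t ≤ r (m + 1)) :
    ZP k (hi s t) k (i + 1) ≤ Submodule.span k (Vs V K m) ⊔ BP k (hi s (r m)) k (i + 1) :=
  (W.cr m t ⟨h1, h2⟩ _ ⟨le_rfl, (W.lt _ _).le⟩).trans (sup_le ((zp_far V (anti_l W) hm).trans
    (sup_le_sup_left (BP_mono (hi_mono (W.lt _ _).le)) _)) le_sup_right)

theorem sp_A {Z : Submodule k (Co k (i + 1) X)} {U U' : Set X} {H : Set (Co k (i + 1) X)} (hU : U' ⊆ U)
    (h : Z ≤ ZP k U k (i + 1) ⊔ (On U).Ex k k (i + 1))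
    (h' : ZP k U k (i + 1) ≤ Submodule.span k H ⊔ BP k U' k (i + 1)) :
    Z ≤ Submodule.span k H ⊔ (On U').Ex k k (i + 1) :=
  h.trans (sup_le (h'.trans (sup_le_sup_left BP_le_Ex _)) ((Sb.Ex_mono (On_le hU)).trans le_sup_right))

theorem sp_B {Z : Submodule k (Co k (i + 1) X)} {U U' : Set X} {H : Set (Co k (i + 1) X)}
    {g : Co k (i + 1) X} (hU : U' ⊆ U) (h : Z ≤ ZP k U k (i + 1) ⊔ k ∙ g ⊔ (On U).Ex k k (i + 1))
    (h' : ZP k U k (i + 1) ≤ Submodule.span k H ⊔ BP k U' k (i + 1)) :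
    Z ≤ Submodule.span k (insert g H) ⊔ (On U').Ex k k (i + 1) :=
  h.trans (sup_le (sup_le (h'.trans (sup_le_sup (Submodule.span_mono (subset_insert _ _)) BP_le_Ex))
    ((Submodule.span_mono (singleton_subset_iff.2 (mem_insert _ _))).trans le_sup_left))
    ((Sb.Ex_mono (On_le hU)).trans le_sup_right))

end abs

section ends

variable {ι S : Type} [DecidableEq ι] [MulAction (FreeGroup ι) S] {w : En.Wl ι S}
  {F : Subgroup (FreeGroup ι)} {X : Type} [TopologicalSpace X] [MulAction F X] {k : Type} [Field k]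
  (hX : Acy k (univ : Set X) univ) (hc : Hc0 k X k 2) (E : End w F k X) (M : Md w) (e : Ed ι)
  {l r : ℕ → ℝ} (W : Win k 0 (E.s e) l r) (l0 : 0 ≤ l 0) (r0 : r 0 ≤ 1) {A : ℕ → Set X} {K m : ℕ}
  (hm : m ≤ K) {u t ρ : ℝ} {g : Co k 1 X}

omit [DecidableEq ι] in
theorem l_pos {s : C(X, ℝ)} (W : Win k 0 s l r) (l0 : 0 ≤ l 0) (m : ℕ) : 0 < l (m + 1) :=
  l0.trans_lt (W.ml m.succ_pos)


include hX hc W l0 hm









end ends

section det

variable {X : Type} [TopologicalSpace X] {k : Type} [Field k] {i j d : ℕ} {𝒞 : Set (Set X)}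
  {M : Type} [AddCommGroup M] [Module k M] {O : Ori k (d + 1) X} {R : ℝ} {r : C(X, ℝ)}
  (ho : ∀ C ∈ 𝒞, IsOpen C) (hc : univ ⊆ ⋃₀ 𝒞)

theorem per_span_mem {n : ℕ} (J : Submodule k M) {H : Set (Co k i X)} {f : Co M j X} {y : Ch k n X}
    (h : ∀ x ∈ H, per n x f y ∈ J) {x : Co k i X} (hx : x ∈ Submodule.span k H) : per n x f y ∈ J := by
  induction hx using Submodule.span_induction with
  | mem x hx => exact h x hx
  | zero => rw [← zero_smul k (0 : Co k i X), per_smul, zero_smul]; exact J.zero_mem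
  | add x y _ _ a b => rw [per_add]; exact J.add_mem a b
  | smul a x _ b => rw [per_smul]; exact J.smul_mem a b


variable [T2Space X] [ChartedSpace (EE (d + 1 + 1)) X] (hO : O.ND) (hX : Acy k (univ : Set X) univ)
  (hij : i + 1 + j = d) {ι : Type}
include ho hc hO hX hij



end det

end Crest.Agent.N255.Wn
end
end

-- ▼ part N255/Wn/Wd
section

/-!
# Row 255 (helper46): detection and death of periods for cochains that are closed zone by zone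
-/

set_option autoImplicit false
open Set

noncomputable section

namespace Crest.Agent.N255.Wn

open Tp

variable {X : Type} [TopologicalSpace X] {k : Type} [Field k] {n i j d : ℕ} {𝒞 𝒵 : Set (Set X)}

/-- simplices that are small and lie in some zone -/
abbrev ZB (𝒞 𝒵 : Set (Set X)) : Sb X := (Sm 𝒵).inf (Sm 𝒞)

theorem SB_le_ZB {U V : Set X} (hU : U ∈ 𝒵) (h : V ⊆ U) : (SB 𝒞 V).Le (ZB 𝒞 𝒵) :=
  fun _ _ hσ => ⟨⟨U, hU, hσ.1.trans h⟩, hσ.2⟩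

theorem ZB_mono {𝒵' : Set (Set X)} (h : 𝒵' ⊆ 𝒵) : (ZB 𝒞 𝒵').Le (ZB 𝒞 𝒵) :=
  fun _ _ ⟨⟨U, hU, a⟩, b⟩ => ⟨⟨U, h hU, a⟩, b⟩

theorem per_neg_r {M : Type} [AddCommGroup M] [Module k M] (h : Co k i X) (f : Co M j X) (y : Ch k n X) :
    per n h f (-y) = -per n h f y := map_neg _ _

/-- the period only sees small simplices of the zones -/
theorem per_ZB {M : Type} [AddCommGroup M] [Module k M] (h : Co k i X) {f f' : Co M j X}
    (e : f - f' ∈ (ZB 𝒞 𝒵).van k M j) {y : Ch k n X} (hy : y ∈ (ZB 𝒞 𝒵).ch k n) :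
    per n h f y = per n h f' y := by
  rw [per_eq, per_eq]
  rw [ZB, ← Le.sm_rf] at e hy
  exact Sb.ev_congr e (D_sm cD' h hy)

variable (ho : ∀ C ∈ 𝒞, IsOpen C) (hc : univ ⊆ ⋃₀ 𝒞) (oz : ∀ U ∈ 𝒵, IsOpen U)
include ho hc oz

/-- an honest representative -/
theorem exists_hon {W F : Set X} (hW : W ⊆ ⋃₀ 𝒵) (hF : F ⊆ W) {u : Co k n X} (f1 : u ∈ (ZB 𝒞 𝒵).Z k k n)
    (f2 : u ∈ (SB 𝒞 F).van k k n) : ∃ v ∈ (On W).Z k k n, v ∈ (On F).van k k n ∧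
      v - u ∈ (ZB 𝒞 𝒵).van k k n := by
  have o : ∀ U ∈ image2 (· ∩ ·) 𝒵 𝒞, IsOpen U := by
    rintro _ ⟨U, hU, C, hC, rfl⟩; exact (oz U hU).inter (ho C hC)
  have c : W ⊆ ⋃₀ image2 (· ∩ ·) 𝒵 𝒞 := fun x hx => by
    obtain ⟨U, hU, a⟩ := hW hx
    obtain ⟨C, hC, b⟩ := hc (mem_univ x)
    exact ⟨_, ⟨U, hU, C, hC, rfl⟩, a, b⟩
  refine ⟨exs k (image2 (· ∩ ·) 𝒵 𝒞) u, exs_Z o c ?_, exs_van_of_sm o (hF.trans c) ?_, ?_⟩
  · rw [Le.sm_rf]; exact Sb.Z_mono Sb.inf_le_right f1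
  · rw [Le.sm_rf]; exact fun σ h => f2 σ ⟨h.1, h.2.2⟩
  · rw [ZB, ← Le.sm_rf]; exact exs_sub

variable [T2Space X] {O : Ori k (d + 1) X} {s r : C(X, ℝ)} {a a' a₁ b₁ b' b p q R : ℝ}

/-- **DIE for zones**: a class that is closed on the window and exact on a subwindow has period zero -/
theorem die_zones (hn : i + j = d) (h1 : a ≤ a') (h2 : a' < b') (h3 : b' ≤ b)
    (hK : IsCompact (box s r a b R)) (cz : win s a b ⊆ ⋃₀ 𝒵) {u : Co k j X}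
    (f1 : u ∈ (ZB 𝒞 𝒵).Z k k j) (f2 : u ∈ (SB 𝒞 (fw s r a b R)).van k k j) {y : Ch k (d + 1) X}
    (hw : Wr O 𝒞 s r a b R y) (hy : y ∈ (ZB 𝒞 𝒵).ch k (d + 1)) {x : Co k (i + 1) X}
    (x1 : x ∈ (SB 𝒞 (win s a b)).Z k k (i + 1)) (x2 : x ∈ (SB 𝒞 (win s a' b')).Ex k k (i + 1)) :
    per (d + 1) x u y = 0 := by
  obtain ⟨v, v1, v2, v3⟩ := exists_hon ho hc oz cz fw_le f1 f2
  obtain ⟨y', s', w'⟩ := exists_wr ho hc O h2
    (hK.of_isClosed_subset isClosed_box (box_mono h1 h3 le_rfl))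
  have e1 := move ho hc (by omega : i + 1 + j = d + 1) ⊥ (fun σ hσ => v1 σ hσ.1) (fun σ hσ => v2 σ hσ.1)
    hw (Sb.ch_mono Sb.inf_le_right hy) x1 (w'.mono ho hc h1 h3 le_rfl hK) s'
  have e2 := die ho hc ⊥ (f := v) (fun σ hσ => v1 σ (hσ.1.trans (win_mono h1 h3)))
    (fun σ hσ => v2 σ (hσ.1.trans (fw_mono h1 h3 le_rfl))) w' s' hn x2
  rw [Submodule.mem_bot] at e1 e2
  rw [← per_ZB x v3 hy, sub_eq_zero.1 e1, e2]

variable [ChartedSpace (EE (d + 1 + 1)) X] (hO : O.ND) (hX : Acy k (univ : Set X) univ)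
  (hij : i + 1 + j = d)
include hO hX hij

/-- **DET for zones** -/
theorem det_zones (h1 : a < a') (h2 : a' ≤ a₁) (h3 : a₁ ≤ b₁) (h4 : b₁ ≤ b') (h5 : b' < b)
    (hp : a' ≤ p) (hp' : p ≤ b) (hq : a ≤ q) (hq' : q ≤ b') (hK : IsCompact (box s r a b R))
    (cz : win s a b ⊆ ⋃₀ 𝒵) {HL HR : Set (Co k (i + 1) X)}
    (zl : ∀ x ∈ HL, x ∈ (On (win s a p)).Z k k (i + 1)) (zr : ∀ x ∈ HR, x ∈ (On (win s q b)).Z k k (i + 1))
    (wl : (On (lo s a₁)).Z k k (i + 1) ≤ Submodule.span k HL ⊔ (On (lo s a')).Ex k k (i + 1))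
    (wr : (On (hi s b₁)).Z k k (i + 1) ≤ Submodule.span k HR ⊔ (On (hi s b')).Ex k k (i + 1))
    {y y' : Ch k (d + 1) X} (hw : Wr O 𝒞 s r a p R y) (hy : y ∈ (ZB 𝒞 𝒵).ch k (d + 1))
    (hw' : Wr O 𝒞 s r q b R y') (hy' : y' ∈ (ZB 𝒞 𝒵).ch k (d + 1)) {u : Co k (j + 1) X}
    (f1 : u ∈ (ZB 𝒞 𝒵).Z k k (j + 1)) (f2 : u ∈ (SB 𝒞 (fw s r a b R)).van k k (j + 1))
    (hL : ∀ x ∈ HL, per (d + 1) x u y = 0) (hR : ∀ x ∈ HR, per (d + 1) x u y' = 0) :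
    ∃ θ ∈ Cc k univ k j, u - cob k θ ∈ ((On (win s a₁ b₁)).inf (ZB 𝒞 𝒵)).van k k (j + 1) := by
  obtain ⟨v, v1, v2, v3⟩ := exists_hon ho hc oz cz fw_le f1 f2
  obtain ⟨θ, t1, t2⟩ := mem_BP.1 (Or.det_span ho hc hO hX hij h1 h2 h3 h4 h5 hp hp' hq hq' hK
    (Submodule.span_le.2 zl) (Submodule.span_le.2 zr) wl wr hw hw' v1 v2
    (fun x hx => by
      rw [← per_eq, per_ZB x v3 hy]
      exact per_span_mem ⊥ hL hx)
    fun x hx => by
      rw [← per_eq, per_ZB x v3 hy']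
      exact per_span_mem ⊥ hR hx)
  refine ⟨θ, t1, ?_⟩
  simpa using Submodule.sub_mem _ (Sb.van_mono Sb.inf_le_left t2) (Sb.van_mono Sb.inf_le_right v3)

end Crest.Agent.N255.Wn
end
end

-- ▼ part N255/Wn/WdM

/-!
# Row 255 (helper46): `WF.det` and `WF.die` for the scalar data `Wd` of a wall
-/

set_option autoImplicit false
open Set

noncomputable section

namespace Crest.Agent.N255.Ma
open Tp Nv Pt Lv En Wn Le

section sets
variable {X : Type} [TopologicalSpace X] {s : C(X, ℝ)} {l r : ℕ → ℝ} {n i i' : ℕ} {U : Set X}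

theorem zs_open (h : U ∈ zs s l r n i) : IsOpen U := by
  rcases h with rfl | ⟨z, -, -, rfl | rfl⟩ <;> exact isOpen_win

theorem zs_anti (h : i ≤ i') : zs s l r n i' ⊆ zs s l r n i := by
  rintro _ (rfl | ⟨z, a, b, c⟩)
  exacts [.inl rfl, .inr ⟨z, h.trans a, b, c⟩]

theorem zs_mid : win s (l n) (r n) ∈ zs s l r n i := .inl rfl

theorem zs_sub (L : Wz.Lr l r) (hi : i ≤ n) (h : U ∈ zs s l r n i) : U ⊆ win s (l i) (r i) := by
  rcases h with rfl | ⟨z, a, -, rfl | rfl⟩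
  exacts [win_mono (L.l_le hi) (L.r_le hi), win_mono (L.l_le a) (L.lt _ _).le,
    win_mono (L.lt _ _).le (L.r_le a)]

theorem zo_mem {z : ℕ} (h : z ∈ Wz.Tw n i) : Wz.zo s l r n z ∈ zs s l r n i := by
  obtain ⟨a, b⟩ := h
  rcases lt_trichotomy z n with c | rfl | c
  · exact .inr ⟨z, a, c, .inl (Wz.zo_lt c)⟩
  · exact .inl Wz.zo_mid
  · refine .inr ⟨2 * n - z, by omega, by omega, .inr ?_⟩
    rw [← Wz.zo_gt (by omega : 2 * n - z < n), show 2 * n - (2 * n - z) = z by omega]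

theorem zs_cov (L : Wz.Lr l r) (hi : i ≤ n) : win s (l i) (r i) ⊆ ⋃₀ zs s l r n i := fun _ hx =>
  let ⟨_, a, b⟩ := L.exists_zone hi hx.1 hx.2; ⟨_, zo_mem a, b⟩

end sets

variable {F : Subgroup F3} {S : Type} [MulAction F3 S] {X : Type} [TopologicalSpace X]
  [MulAction F X] [ContinuousConstSMul F X] {k : Type} [Field k]

namespace Wd
variable {g : Geo F k S X} {u R₀ : ℝ} {n : ℕ} {J : Type} [Fintype J] {τ : Ty J} {e : Ed (Fin 3)}
  {o : Bool} (ω : Wd g u R₀ n τ e o) {t t' R : ℝ} {i i' m : ℕ} {σ : Ch k 3 X}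

theorem lr : Wz.Lr ω.l ω.r := ω.win.lr

theorem a_pos : 0 < ω.a := ω.u0.trans_le ω.ua

theorem b_lt : ω.b < 1 := by linarith [ω.bu, ω.u0]

theorem a_lt (m : ℕ) : ω.a < ω.l m := ω.al.trans_le (ω.lr.l_le m.zero_le)

theorem lt_b (m : ℕ) : ω.r m < ω.b := (ω.lr.r_le m.zero_le).trans_lt ω.rb

/-- the small simplices of the zones of the window `i` -/
abbrev Zb (i : ℕ) : Sb X := ZB g.E.cv (ω.Z i)

/-- the small simplices of the centre -/
abbrev Pc : Sb X := SB g.E.cv (Wn.win (g.E.s e) (ω.l n) (ω.r n))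

theorem Pc_le (i : ℕ) : ω.Pc.Le (ω.Zb i) := SB_le_ZB zs_mid subset_rfl

theorem Zb_anti (h : i ≤ i') : (ω.Zb i').Le (ω.Zb i) := ZB_mono (zs_anti h)

/-- normalised cochains that vanish far out on the thick wall -/
def Nr (R : ℝ) : Set (Co k 2 X) :=
  {v | v ∈ ω.E ∧ v ∈ (SB g.E.cv (fw (g.E.s e) g.E.r (ω.l 0) (ω.r 0) R)).van k k 2}

/-- the holonomy class is closed on the `L` side -/
theorem hw_Z : ω.hw ∈ (On (if o then hi (g.E.s e) ω.a else lo (g.E.s e) ω.b)).Z k k 1 := by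
  have h := ω.bz.hZ
  cases o
  · simpa using h
  · simpa [Wv.lo_rv] using h

theorem hw_win : ω.hw ∈ (On (Wn.win (g.E.s e) ω.a ω.b)).Z k k 1 :=
  Sb.Z_mono (On_le (by cases o; exacts [win_lo, win_hi])) ω.hw_Z

/-- classes on the low side if it is the `M` side -/
theorem sp_lo_M (ω : Wd g u R₀ n τ e true) (h0 : ω.a < t) (h : t < t') (h1 : t' < 1) :
    (On (lo (g.E.s e) t')).Z k k 1 ≤ ZP k (lo (g.E.s e) t) k 1 ⊔ (On (lo (g.E.s e) t)).Ex k k 1 := by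
  simpa [Wv.hi_rv] using ω.bz.spR (1 - t') (1 - t) (by linarith) (by linarith) (by simpa using h0)

/-- classes on the high side if it is the `L` side -/
theorem sp_hi_L (ω : Wd g u R₀ n τ e true) (h0 : 0 < t') (h : t' < t) (h1 : t < 1) (ha : ω.a ≤ t) :
    (On (hi (g.E.s e) t')).Z k k 1 ≤
      ZP k (hi (g.E.s e) t) k 1 ⊔ k ∙ ω.hw ⊔ (On (hi (g.E.s e) t)).Ex k k 1 := by
  simpa [Wv.lo_rv] using ω.bz.spL (1 - t) (1 - t') (by linarith) (by linarith) (by linarith)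
    (show 1 - t ≤ 1 - ω.a by linarith)

/-- classes on the low side if it is the `L` side -/
theorem sp_lo_L (ω : Wd g u R₀ n τ e false) (h0 : 0 < t) (h : t < t') (h1 : t' < 1) (hb : t ≤ ω.b) :
    (On (lo (g.E.s e) t')).Z k k 1 ≤
      ZP k (lo (g.E.s e) t) k 1 ⊔ k ∙ ω.hw ⊔ (On (lo (g.E.s e) t)).Ex k k 1 := by
  simpa using ω.bz.spL t t' h0 h h1 (by simpa using hb)

/-- classes on the high side if it is the `M` side -/
theorem sp_hi_M (ω : Wd g u R₀ n τ e false) (h0 : 0 < t') (h : t' < t) (hb : t < ω.b) :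
    (On (hi (g.E.s e) t')).Z k k 1 ≤ ZP k (hi (g.E.s e) t) k 1 ⊔ (On (hi (g.E.s e) t)).Ex k k 1 := by
  simpa using ω.bz.spR t' t h0 h (by simpa using hb)

theorem sp_lo (h0 : ω.a < t) (h : t < t') (h1 : t' < 1) (hb : t ≤ ω.b) : (On (lo (g.E.s e) t')).Z k k 1 ≤
    ZP k (lo (g.E.s e) t) k 1 ⊔ k ∙ ω.hw ⊔ (On (lo (g.E.s e) t)).Ex k k 1 := by
  cases o
  · exact ω.sp_lo_L (ω.a_pos.trans h0) h h1 hb
  · exact (ω.sp_lo_M h0 h h1).trans (sup_le_sup_right le_sup_left _)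

theorem sp_hi (h0 : 0 < t') (h : t' < t) (hb : t < ω.b) (ha : ω.a ≤ t) : (On (hi (g.E.s e) t')).Z k k 1 ≤
    ZP k (hi (g.E.s e) t) k 1 ⊔ k ∙ ω.hw ⊔ (On (hi (g.E.s e) t)).Ex k k 1 := by
  cases o
  · exact (ω.sp_hi_M h0 h hb).trans (sup_le_sup_right le_sup_left _)
  · exact ω.sp_hi_L h0 h (hb.trans ω.b_lt) ha

/-- the classes of side `c` and scale at most `m` -/
def Hs (c : Bool) (m : ℕ) : Set (Co k 1 X) := {x | ∃ j, (τ.kd j == o) = c ∧ τ.sc j ≤ m ∧ ω.h j = x}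

theorem zp_far (c : Bool) (hm : m < n) :
    ZP k (ω.B c (m + 1)) k 1 ≤ Submodule.span k (ω.Hs c m) ⊔ BP k (ω.B c (m + 2)) k 1 := fun φ hφ => by
  obtain ⟨x, h1, h2⟩ := ω.span c m hm φ hφ
  refine Submodule.mem_sup.2 ⟨∑ j, x j • ω.h j, Submodule.sum_mem _ fun j _ => ?_, _, h2, by abel⟩
  by_cases h : x j = 0
  · rw [h, zero_smul]; exact Submodule.zero_mem _
  · exact Submodule.smul_mem _ _ (Submodule.subset_span ⟨j, (h1 j h).1, (h1 j h).2, rfl⟩)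

theorem zp_lo (hm : m < n) (h1 : ω.l (m + 1) ≤ t) (h2 : t ≤ ω.r (m + 1)) : ZP k (lo (g.E.s e) t) k 1 ≤
    Submodule.span k (ω.Hs true m) ⊔ BP k (lo (g.E.s e) (ω.l m)) k 1 :=
  (ω.win.cl m t ⟨h1, h2⟩ _ ⟨(ω.lr.lt _ _).le, le_rfl⟩).trans (sup_le ((ω.zp_far true hm).trans
    (sup_le_sup_left (BP_mono (lo_mono (ω.lr.lt _ _).le)) _)) le_sup_right)

theorem zp_hi (hm : m < n) (h1 : ω.l (m + 1) ≤ t) (h2 : t ≤ ω.r (m + 1)) : ZP k (hi (g.E.s e) t) k 1 ≤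
    Submodule.span k (ω.Hs false m) ⊔ BP k (hi (g.E.s e) (ω.r m)) k 1 :=
  (ω.win.cr m t ⟨h1, h2⟩ _ ⟨le_rfl, (ω.lr.lt _ _).le⟩).trans (sup_le ((ω.zp_far false hm).trans
    (sup_le_sup_left (BP_mono (hi_mono (ω.lr.lt _ _).le)) _)) le_sup_right)

/-- **SPAN′**, low side, near form -/
theorem span_lo (hm : m < n) (h : ω.l (m + 1) < t) (h1 : t < 1) : (On (lo (g.E.s e) t)).Z k k 1 ≤
    Submodule.span k (insert ω.hw (ω.Hs true m)) ⊔ (On (lo (g.E.s e) (ω.l m))).Ex k k 1 :=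
  sp_B (lo_mono (ω.lr.l_le m.le_succ)) (ω.sp_lo (ω.a_lt _) h h1 ((ω.lr.lt _ 0).trans ω.rb).le)
    (ω.zp_lo hm le_rfl (ω.lr.lt _ _).le)

/-- **SPAN′**, high side, near form -/
theorem span_hi (hm : m < n) (h0 : 0 < t) (h : t < ω.r (m + 1)) : (On (hi (g.E.s e) t)).Z k k 1 ≤
    Submodule.span k (insert ω.hw (ω.Hs false m)) ⊔ (On (hi (g.E.s e) (ω.r m))).Ex k k 1 :=
  sp_B (hi_mono (ω.lr.r_le m.le_succ)) (ω.sp_hi h0 h (ω.lt_b _) (ω.al.trans (ω.lr.lt 0 _)).le)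
    (ω.zp_hi hm (ω.lr.lt _ _).le le_rfl)

/-- **SPAN′**, high side, far form -/
theorem span_hi' (hm : m < n) (h0 : 0 < t) (h : t < ω.l (m + 1)) : (On (hi (g.E.s e) t)).Z k k 1 ≤
    Submodule.span k (insert ω.hw (ω.Hs false m)) ⊔ (On (hi (g.E.s e) (ω.l (m + 2)))).Ex k k 1 :=
  sp_B (hi_mono (ω.lr.l_le (m + 1).le_succ))
    (ω.sp_hi h0 h ((ω.lr.lt _ 0).trans ω.rb) (ω.a_lt _).le) (ω.zp_far false hm)

/-- **SPAN′**, high side, far form, at an `L` slot (the high side is the `M` side) -/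
theorem span_hi_M (ω : Wd g u R₀ n τ e false) (hm : m < n) (h0 : 0 < t) (h : t < ω.l (m + 1)) :
    (On (hi (g.E.s e) t)).Z k k 1 ≤
      Submodule.span k (ω.Hs false m) ⊔ (On (hi (g.E.s e) (ω.l (m + 2)))).Ex k k 1 :=
  sp_A (hi_mono (ω.lr.l_le (m + 1).le_succ)) (ω.sp_hi_M h0 h ((ω.lr.lt _ 0).trans ω.rb))
    (ω.zp_far false hm)

theorem h_lo {j : J} (c : (τ.kd j == o) = true) : ω.h j ∈ (On (lo (g.E.s e) (ω.r n))).Z k k 1 := by
  have h := (ω.mem j).2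
  rw [c] at h
  exact Sb.Z_mono (On_le (lo_mono (ω.lr.r_le (ω.sc_lt j)))) h

theorem h_hi {j : J} (c : (τ.kd j == o) = false) : ω.h j ∈ (On (hi (g.E.s e) (ω.l n))).Z k k 1 := by
  have h := (ω.mem j).2
  rw [c] at h
  exact Sb.Z_mono (On_le (hi_mono (ω.lr.l_le (ω.sc_lt j)))) h

theorem mid_B (j : J) : Wn.win (g.E.s e) (ω.l n) (ω.r n) ⊆ ω.B (τ.kd j == o) (τ.sc j + 1) := by
  cases τ.kd j == o
  exacts [win_hi.trans (hi_mono (ω.lr.l_le (ω.sc_lt j))), win_lo.trans (lo_mono (ω.lr.r_le (ω.sc_lt j)))]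

/-- on the centre the cut class is the class -/
theorem ct_sub_h (j : J) : ω.ct j - ω.h j ∈ ω.Pc.van k k 1 :=
  Sb.van_mono (Sb.inf_le_left.trans (On_le (ω.mid_B j))) Wv.ct_sub

theorem h_Pc (j : J) : ω.h j ∈ ω.Pc.Z k k 1 :=
  Sb.Z_mono (Sb.inf_le_left.trans (On_le (ω.mid_B j))) (ω.mem j).2

theorem hw_Pc : ω.hw ∈ ω.Pc.Z k k 1 :=
  Sb.Z_mono (Sb.inf_le_left.trans (On_le (win_mono (ω.a_lt n).le (ω.lt_b n).le))) ω.hw_win

variable {ω}

theorem Sig.pc (h : ω.Sig R σ) : σ ∈ ω.Pc.ch k 3 := by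
  cases o
  · simpa using (Wr.sb g.E.cv_open g.E.cv_cover h.wr (Submodule.neg_mem _ h.sm)).1
  · exact (Wr.sb g.E.cv_open g.E.cv_cover h.wr h.sm).1


variable [T2Space X]

theorem Sig.wr' (h : ω.Sig R σ) {a b R' : ℝ} (ha : a ≤ ω.l n) (hb : ω.r n ≤ b) (hR : R' ≤ R) :
    Wr g.O g.E.cv (g.E.s e) g.E.r a b R' (if o then σ else -σ) :=
  h.wr.mono g.E.cv_open g.E.cv_cover ha hb hR (box_cpt _ _ _ _ _)

omit [T2Space X] in
theorem Sig.zb (h : ω.Sig R σ) (i : ℕ) : (if o then σ else -σ) ∈ (ω.Zb i).ch k 3 := by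
  have := Sb.ch_mono (ω.Pc_le i) h.pc
  cases o
  · exact Submodule.neg_mem _ this
  · exact this

omit [T2Space X] in
theorem per_ite {x : Co k 1 X} {v : Co k 2 X} : per 3 x v (if o then σ else -σ) = 0 ↔ per 3 x v σ = 0 := by
  cases o <;> simp [per_neg_r]

/-- **`WF.die`** -/
theorem Sig.die (h : ω.Sig R σ) {R' : ℝ} (hR : R' ≤ R) {j : J} (hi : i + 2 ≤ τ.sc j) {v : Co k 2 X}
    (hv : v ∈ ω.Nr R') (hz : v ∈ (ω.Zb i).Z k k 2) : per 3 (ω.h j) v σ = 0 := by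
  have hn := ω.sc_lt j
  have L := ω.lr
  have hv' := ω.van j (i + 1) hi
  refine (per_ite (o := o)).1 ?_
  rcases c : τ.kd j == o
  · rw [c] at hv'
    exact die_zones (d := 2) (i := 0) g.E.cv_open g.E.cv_cover (fun _ => zs_open) rfl
      (a := ω.l n) (b := ω.r i) (a' := ω.r (i + 1)) (b' := ω.r i) (L.lt _ _).le (L.ar i.lt_succ_self) le_rfl
      (box_cpt _ _ _ _ _) ((win_mono (L.l_le (by omega)) le_rfl).trans (zs_cov L (by omega))) hz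
      (Sb.van_mono (SB_mono (fw_mono (L.l_le n.zero_le) (L.r_le i.zero_le) le_rfl)) hv.2)
      (h.wr' le_rfl (L.r_le (by omega)) hR) (h.zb i)
      (Sb.Z_mono (Sb.inf_le_left.trans (On_le win_hi)) (ω.h_hi c))
      (Submodule.mem_sup_right (Sb.van_mono (Sb.inf_le_left.trans (On_le win_hi)) hv'))
  · rw [c] at hv'
    exact die_zones (d := 2) (i := 0) g.E.cv_open g.E.cv_cover (fun _ => zs_open) rfl
      (a := ω.l i) (b := ω.r n) (a' := ω.l i) (b' := ω.l (i + 1)) le_rfl (L.ml i.lt_succ_self) (L.lt _ _).le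
      (box_cpt _ _ _ _ _) ((win_mono le_rfl (L.r_le (by omega))).trans (zs_cov L (by omega))) hz
      (Sb.van_mono (SB_mono (fw_mono (L.l_le i.zero_le) (L.r_le n.zero_le) le_rfl)) hv.2)
      (h.wr' (L.l_le (by omega)) le_rfl hR) (h.zb i)
      (Sb.Z_mono (Sb.inf_le_left.trans (On_le win_lo)) (ω.h_lo c))
      (Submodule.mem_sup_right (Sb.van_mono (Sb.inf_le_left.trans (On_le win_lo)) hv'))

variable [ChartedSpace (EE 4) X]

/-- **`WF.det`** -/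
theorem Sig.det (h : ω.Sig R σ) {R' : ℝ} (hR : R' ≤ R) (hi : i + 3 ≤ i') (hn : i' ≤ n) {v : Co k 2 X}
    (hv : v ∈ ω.Nr R') (hz : v ∈ (ω.Zb i).Z k k 2) (h1 : ∀ j, τ.sc j ≤ i + 1 → per 3 (ω.h j) v σ = 0)
    (h2 : per 3 ω.hw v σ = 0) : v ∈ (ω.Zb i').van k k 2 := by
  have L := ω.lr
  have w : ∀ m m', Wn.win (g.E.s e) (ω.l m) (ω.r m') ⊆ Wn.win (g.E.s e) ω.a ω.b := fun m m' =>
    win_mono (ω.a_lt m).le (ω.lt_b m').le
  obtain ⟨θ, t1, t2⟩ := det_zones (d := 2) (i := 0) (j := 1) g.E.cv_open g.E.cv_cover (fun _ => zs_open)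
    g.nd g.acy rfl (a := ω.l i) (a' := ω.l (i + 1)) (a₁ := ω.l i') (b₁ := ω.r i') (b' := ω.r (i + 1))
    (b := ω.r i) (p := ω.r n) (q := ω.l n) (L.ml i.lt_succ_self) (L.l_le (by omega)) (L.lt _ _).le
    (L.r_le (by omega)) (L.ar i.lt_succ_self) (L.lt _ _).le (L.r_le (by omega)) (L.l_le (by omega))
    (L.lt _ _).le (box_cpt _ _ _ _ _) (zs_cov L (by omega))
    (HL := insert ω.hw (ω.Hs true (i + 1))) (HR := insert ω.hw (ω.Hs false (i + 1)))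
    (by
      rintro _ (rfl | ⟨j, c, -, rfl⟩)
      exacts [Sb.Z_mono (On_le (w _ _)) ω.hw_win, Sb.Z_mono (On_le win_lo) (ω.h_lo c)])
    (by
      rintro _ (rfl | ⟨j, c, -, rfl⟩)
      exacts [Sb.Z_mono (On_le (w _ _)) ω.hw_win, Sb.Z_mono (On_le win_hi) (ω.h_hi c)])
    (ω.span_lo (by omega) (L.ml (by omega)) (((L.lt _ 0).trans ω.rb).trans ω.b_lt))
    (ω.span_hi (by omega) ((ω.a_pos.trans ω.al).trans (L.lt _ _)) (L.ar (by omega)))
    (h.wr' (L.l_le (by omega)) le_rfl hR) (h.zb i) (h.wr' le_rfl (L.r_le (by omega)) hR) (h.zb i) hz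
    (Sb.van_mono (SB_mono (fw_mono (L.l_le i.zero_le) (L.r_le i.zero_le) le_rfl)) hv.2)
    (by
      rintro _ (rfl | ⟨j, -, c, rfl⟩)
      exacts [per_ite.2 h2, per_ite.2 (h1 j c)])
    (by
      rintro _ (rfl | ⟨j, -, c, rfl⟩)
      exacts [per_ite.2 h2, per_ite.2 (h1 j c)])
  rintro ρ ⟨⟨U, hU, a⟩, b⟩
  exact ω.nf.s1 U (zs_anti i'.zero_le hU) v hv.1 θ t1 (fun ρ' c => t2 ρ'
    ⟨c.1.trans (zs_sub L hn hU), ⟨U, zs_anti (by omega) hU, c.1⟩, c.2⟩) ρ ⟨a, b⟩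

end Wd

end Crest.Agent.N255.Ma
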