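import Crest.Agent.N255.Wn.En
import Crest.Agent.N255.Tp.Phi

/-!
# Row 255 (helper46): q-tameness and detection for compact supports restricted to open sets
-/

set_option autoImplicit false
open Set Filter Topology

noncomputable section

namespace Crest.Agent.N255.Wn

open Crest.Agent.N255.Tp Crest.Agent.N255.Wi Crest.Agent.N255.En Crest.Agent.N255.Pt
  Crest.Agent.N255.Lv

variable {X : Type} [TopologicalSpace X] {k : Type} [Field k] {n i j d : ℕ} [T2Space X]
  {A : Type} [AddCommGroup A] [Module k A] {a a' a₁ b b' b₁ R : ℝ}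

omit [T2Space X] in
/-- compactly supported cochains vanish far away -/
theorem Cc_far (r : C(X, ℝ)) {U : Set X} {φ : Co A n X} (h : φ ∈ Cc k U A n) :
    ∃ R₀, ∀ R, R₀ ≤ R → φ ∈ (On (hi r R)).van k A n := by
  obtain ⟨K, hK, -, h⟩ := h
  obtain ⟨M, hM⟩ := (hK.image r.continuous).bddAbove
  exact ⟨M, fun R hR => van_mono (fun x hx h => by linarith [hM ⟨x, h, rfl⟩, show R < r x from hx]) h⟩

theorem hc0 [ChartedSpace (EE (d + 1)) X] {O : Ori k d X} (hO : O.ND) (hX : Acy k (univ : Set X) univ)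
    [Module.Finite k A] (h0 : 0 < n) (hn : n ≤ d) : Hc0 k X A n := by
  obtain ⟨n, rfl⟩ : ∃ m, n = m + 1 := ⟨n - 1, by omega⟩
  exact (hc0_of fun _ h h' => hc_zero hO hX (by omega) h h').fin


section re
variable [ChartedSpace (EE (d + 1 + 1)) X] {O : Ori k (d + 1) X} {𝒞 : Set (Set X)} {s r : C(X, ℝ)}
  {w : Ch k (d + 1) X} {HL HR : Submodule k (Co k (i + 1) X)}


end re

variable {ι S : Type} [DecidableEq ι] [MulAction (FreeGroup ι) S] {w : En.Wl ι S}
  {F : Subgroup (FreeGroup ι)} [MulAction F X] (E : End w F k X) (M : Md w) [ChartedSpace (EE 4) X]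
  {O : Ori k 3 X} (hO : O.ND) (hX : Acy k (univ : Set X) univ)
include M hO hX

theorem phi_lo (e : Ed ι) (h0 : 0 ≤ a) (h1 : a < b) (h2 : b ≤ 1) (hn : n ≤ 1) :
    FR (ZP k (lo (E.s e) b) k (n + 1)) (BP k (lo (E.s e) a) k (n + 1)) := by
  obtain ⟨j, hj⟩ : ∃ j, n + 1 + (j + 1) = 3 := ⟨1 - n, by omega⟩
  exact fr_phi (d := 3) hO cD isOpen_lo (isOpen_hi (t := (a + b) / 2)) (isOpen_hi (t := a))
    (fun x hx => show (a + b) / 2 < E.s e x by linarith [not_lo hx]) (hi_mono (by linarith))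
    (lo_mono h1.le) (disjoint_left.2 fun x h h' => hi_le_compl le_rfl h' h) hj
    (fun c h => hX _ ⟨mem_ch_univ c, h⟩) (fun c h => hX _ ⟨mem_ch_univ c, h⟩)
    (end_hi E M hX e (by linarith) (by linarith) (by linarith) (by omega))

theorem phi_hi (e : Ed ι) (h0 : 0 ≤ a) (h1 : a < b) (h2 : b ≤ 1) (hn : n ≤ 1) :
    FR (ZP k (hi (E.s e) a) k (n + 1)) (BP k (hi (E.s e) b) k (n + 1)) := by
  simpa only [lo_rev, sub_sub_cancel] using
    phi_lo E M hO hX (rev e) (a := 1 - b) (b := 1 - a) (by linarith) (by linarith) (by linarith) hn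


end Crest.Agent.N255.Wn

end
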